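import Vale.Agent.P085N34.G
import Vale.Agent.P085Z.Bicomm
import Vale.Agent.P132N34.D
import Mathlib.Analysis.LocallyConvex.WeakDual

/-! Vector functionals and the duality. -/

set_option linter.all false

open scoped Topology InnerProductSpace
open Vale.Agent.P132 Vale.Agent.P085Z

namespace Vale.Agent.P085N34

universe u v

variable {H : Type u} [NormedAddCommGroup H] [InnerProductSpace ℂ H] [CompleteSpace H]
variable (M : StarSubalgebra ℂ (H →L[ℂ] H))

/-- vector functionals -/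
noncomputable def vf (ξ η : H) : StrongDual ℂ M :=
  innerSL ℂ ξ ∘L ContinuousLinearMap.apply ℂ H η ∘L
    (Subalgebra.toSubmodule M.toSubalgebra).subtypeL

theorem vf_apply (ξ η : H) (x : M) : vf M ξ η x = ⟪ξ, x.1 η⟫_ℂ := rfl

theorem norm_vf_le (ξ η : H) : ‖vf M ξ η‖ ≤ ‖ξ‖ * ‖η‖ := by
  refine ContinuousLinearMap.opNorm_le_bound _ (by positivity) fun x => ?_
  rw [vf_apply]
  refine (norm_inner_le_norm _ _).trans ?_
  have h : ‖x.1 η‖ ≤ ‖x‖ * ‖η‖ := x.1.le_opNorm η
  calc ‖ξ‖ * ‖x.1 η‖ ≤ ‖ξ‖ * (‖x‖ * ‖η‖) := by gcongr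
    _ = _ := by ring

/-- the set of vector functionals -/
def VF : Set (StrongDual ℂ M) := {f | ∃ ξ η : H, ∀ x : M, f x = ⟪ξ, x.1 η⟫_ℂ}

/-- the closed span of the vector functionals -/
noncomputable def clo : Submodule ℂ (StrongDual ℂ M) :=
  (Submodule.span ℂ (VF M)).topologicalClosure

theorem vf_mem_clo (ξ η : H) : vf M ξ η ∈ clo M :=
  Submodule.le_topologicalClosure _ (Submodule.subset_span ⟨ξ, η, fun _ => rfl⟩)

theorem isClosed_clo : IsClosed (clo M : Set (StrongDual ℂ M)) :=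
  Submodule.isClosed_topologicalClosure _

theorem tsum_amp (ξ η : EllTwo H) (x : H →L[ℂ] H) :
    ∑' n, ⟪ξ n, x (η n)⟫_ℂ = ⟪ξ, amp x η⟫_ℂ := (lp.hasSum_inner (𝕜 := ℂ) ξ (amp x η)).tsum_eq

theorem cont_amp (ξ η : EllTwo H) :
    Continuous[sigmaWeak H, inferInstance] fun x : H →L[ℂ] H => ⟪ξ, amp x η⟫_ℂ := by
  simp only [← tsum_amp]
  exact continuous_iInf_dom (i := ξ) (continuous_iInf_dom (i := η) continuous_induced_dom)

theorem cont_vec (ξ η : H) :
    Continuous[sigmaWeak H, inferInstance] fun x : H →L[ℂ] H => ⟪ξ, x η⟫_ℂ := by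
  have h := cont_amp (P132.emb 0 ξ) (P132.emb 0 η)
  have e : ∀ x : H →L[ℂ] H, ⟪P132.emb 0 ξ, amp x (P132.emb 0 η)⟫_ℂ = ⟪ξ, x η⟫_ℂ := fun x => by
    rw [← tsum_amp, tsum_eq_single 0 (fun j hj => by rw [emb_apply_ne hj, inner_zero_left]),
      emb_apply_self, emb_apply_self]
  simpa only [e] using h

variable {M}

theorem mem_predual_of {f : StrongDual ℂ M} {g : (H →L[ℂ] H) → ℂ}
    (hg : Continuous[sigmaWeak H, inferInstance] g) (h : ∀ x : M, f x = g x.1) :
    f ∈ predual M := by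
  have e : (f : M → ℂ) = g ∘ Subtype.val := funext h
  change Continuous[sigmaOn M, inferInstance] f
  rw [e]
  exact @Continuous.comp _ _ _ (sigmaOn M) (sigmaWeak H) _ _ _ hg continuous_induced_dom

theorem VF_subset_predual : VF M ⊆ predual M := by
  rintro f ⟨ξ, η, h⟩
  exact mem_predual_of (cont_vec ξ η) h

theorem exists_af (ξ η : EllTwo H) : ∃ g ∈ clo M, ∀ x : M, g x = ⟪ξ, amp x.1 η⟫_ℂ := by
  have hs : Summable fun n => vf M (ξ n) (η n) := by
    refine Summable.of_norm_bounded ((L2_norm_sq ξ).summable.add (L2_norm_sq η).summable)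
      fun n => (norm_vf_le M _ _).trans ?_
    nlinarith [sq_nonneg (‖ξ n‖ - ‖η n‖), mul_nonneg (norm_nonneg (ξ n)) (norm_nonneg (η n))]
  refine ⟨_, (isClosed_clo M).mem_of_tendsto hs.hasSum (Filter.Eventually.of_forall fun s =>
    Submodule.sum_mem _ fun n _ => vf_mem_clo M _ _), fun x => ?_⟩
  rw [← tsum_amp]
  exact ((ContinuousLinearMap.apply ℂ ℂ x).hasSum hs.hasSum).tsum_eq.symm

theorem predual_le_clo : predual M ≤ clo M := by
  intro f hf
  choose g hg hg' using fun p : EllTwo H × EllTwo H => exists_af (M := M) p.1 p.2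
  have ht : sigmaOn M = ⨅ p, TopologicalSpace.induced (g p).toLinearMap inferInstance := by
    simp only [sigmaOn, sigmaWeak, induced_iInf, induced_compose, iInf_prod]
    refine iInf_congr fun ξ => iInf_congr fun η => ?_
    congr 1
    funext x
    exact (tsum_amp ξ η x.1).trans (hg' (ξ, η) x).symm
  have hf' : Continuous[sigmaOn M, inferInstance] f.toLinearMap := hf
  rw [ht, ← LinearMap.mem_span_iff_continuous] at hf'
  have key : ∀ φ ∈ Submodule.span ℂ (Set.range fun p => (g p).toLinearMap),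
      ∃ k ∈ clo M, ∀ x, k x = φ x := by
    intro φ hφ
    induction hφ using Submodule.span_induction with
    | mem x hx =>
      obtain ⟨p, rfl⟩ := hx
      exact ⟨g p, hg p, fun _ => rfl⟩
    | zero => exact ⟨0, zero_mem _, fun _ => rfl⟩
    | add x y _ _ hx hy =>
      obtain ⟨a, ha, ha'⟩ := hx
      obtain ⟨b, hb, hb'⟩ := hy
      exact ⟨a + b, add_mem ha hb, fun z => by
        rw [ContinuousLinearMap.add_apply, LinearMap.add_apply, ha', hb']⟩
    | smul c x _ hx =>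
      obtain ⟨a, ha, ha'⟩ := hx
      exact ⟨c • a, Submodule.smul_mem _ c ha, fun z => by
        rw [ContinuousLinearMap.smul_apply, LinearMap.smul_apply, ha']⟩
  obtain ⟨k, hk, hk'⟩ := key _ hf'
  have : f = k := ContinuousLinearMap.ext fun x => (hk' x).symm
  rw [this]
  exact hk

theorem norming_of {Q : Submodule ℂ (StrongDual ℂ M)} (h : VF M ⊆ Q) : Norming (A := M) Q := by
  intro x C hC hx
  refine ContinuousLinearMap.opNorm_le_bound x.1 hC fun η => ?_
  have h1 := hx _ (h ⟨x.1 η, η, vf_apply M _ _⟩)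
  have h2 := norm_vf_le M (x.1 η) η
  rw [vf_apply, inner_self_eq_norm_sq_to_K, norm_pow, RCLike.norm_ofReal, abs_norm] at h1
  have h3 : ‖x.1 η‖ ^ 2 ≤ C * (‖x.1 η‖ * ‖η‖) := h1.trans (by gcongr)
  by_contra hn
  push Not at hn
  have h4 : 0 ≤ C * ‖η‖ := by positivity
  nlinarith

theorem refl_clo (hM : IsVN M) : Refl (A := M) (clo M) := by
  intro Φ
  let B : H →ₗ⋆[ℂ] H →ₗ[ℂ] ℂ := LinearMap.mk₂'ₛₗ (starRingEnd ℂ) (RingHom.id ℂ)
    (fun ξ η => Φ (vf M ξ η))
    (fun a b c => by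
      rw [← map_add]; congr 1; ext x; exact inner_add_left _ _ _)
    (fun c a b => by
      rw [← map_smul]; congr 1; ext x; exact inner_smul_left _ _ _)
    (fun a b c => by
      rw [← map_add]; congr 1; ext x
      change ⟪a, x.1 (b + c)⟫_ℂ = ⟪a, x.1 b⟫_ℂ + ⟪a, x.1 c⟫_ℂ
      rw [map_add, inner_add_right])
    (fun c a b => by
      rw [RingHom.id_apply, ← map_smul]; congr 1; ext x
      change ⟪a, x.1 (c • b)⟫_ℂ = c * ⟪a, x.1 b⟫_ℂ
      rw [map_smul, inner_smul_right])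
  let B' : H →L⋆[ℂ] H →L[ℂ] ℂ := B.mkContinuous₂ ‖Φ‖ fun ξ η => by
    refine (Φ.le_opNorm _).trans ?_
    rw [mul_assoc]
    exact mul_le_mul_of_nonneg_left (norm_vf_le M ξ η) (norm_nonneg _)
  let T : H →L[ℂ] H := star (InnerProductSpace.continuousLinearMapOfBilin B')
  have hT : ∀ ξ η, ⟪ξ, T η⟫_ℂ = Φ (vf M ξ η) := fun ξ η => by
    rw [inner_star_right, InnerProductSpace.continuousLinearMapOfBilin_apply]
    rfl
  have hTM : T ∈ M := mem_of_bicomm M hM fun c hc => by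
    ext η
    refine ext_inner_left ℂ fun ξ => ?_
    change ⟪ξ, T (c η)⟫_ℂ = ⟪ξ, c (T η)⟫_ℂ
    rw [← inner_star_left c, hT, hT]
    congr 1
    ext x
    rw [vf_apply, vf_apply, inner_star_left]
    exact congrArg (fun S : H →L[ℂ] H => ⟪ξ, S η⟫_ℂ) (hc x.1 x.2)
  refine ⟨⟨T, hTM⟩, fun f hf => ?_⟩
  let D : StrongDual ℂ M →L[ℂ] ℂ := Φ - ContinuousLinearMap.apply ℂ ℂ (⟨T, hTM⟩ : M)
  have hD : clo M ≤ D.ker := by
    refine Submodule.topologicalClosure_minimal _ (Submodule.span_le.2 ?_) D.isClosed_ker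
    rintro g ⟨ξ, η, hg⟩
    have : g = vf M ξ η := ContinuousLinearMap.ext hg
    rw [this]
    exact sub_eq_zero.2 (hT ξ η).symm
  exact sub_eq_zero.1 (hD hf)

theorem refl_predual (hM : IsVN M) : Refl (A := M) (predual M) := fun Φ => by
  obtain ⟨x, hx⟩ := refl_clo hM Φ
  exact ⟨x, fun f hf => hx f (predual_le_clo hf)⟩

theorem dual_predual (hM : IsVN M) : IsDualOf M (predual M) (fun x f => f.1 x) :=
  isDualOf_of (A := M) (refl_predual hM) (norming_of VF_subset_predual)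

end Vale.Agent.P085N34
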