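import Vale.Agent.P085N34.St
import Mathlib.Analysis.Normed.Module.HahnBanach
import Mathlib.Analysis.Normed.Module.DoubleDual
import Mathlib.Analysis.Normed.Group.Quotient

/-! General facts on subspaces of a dual space. -/

set_option linter.all false

open scoped Topology

namespace Vale.Agent.P085N34

universe u v w

variable {A : Type u} [NormedAddCommGroup A] [NormedSpace ℂ A]

/-- every bounded functional on `Q` is an evaluation -/
def Refl (Q : Submodule ℂ (StrongDual ℂ A)) : Prop :=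
  ∀ Φ : StrongDual ℂ A →L[ℂ] ℂ, ∃ x : A, ∀ f ∈ Q, Φ f = f x

/-- `Q` is norming -/
def Norming (Q : Submodule ℂ (StrongDual ℂ A)) : Prop :=
  ∀ (x : A) (C : ℝ), 0 ≤ C → (∀ f ∈ Q, ‖f x‖ ≤ C * ‖f‖) → ‖x‖ ≤ C

theorem isDualOf_gen {X : Type v} [NormedAddCommGroup X] [NormedSpace ℂ X]
    (i : X →L[ℂ] StrongDual ℂ A) (hi : ∀ ξ, ‖i ξ‖ ≤ ‖ξ‖)
    (h1 : ∀ φ : StrongDual ℂ X, ∃ x, ∀ ξ, φ ξ = i ξ x)
    (h2 : ∀ (x : A) (C : ℝ), 0 ≤ C → (∀ ξ, ‖i ξ x‖ ≤ C * ‖ξ‖) → ‖x‖ ≤ C) :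
    IsDualOf A X (fun x ξ => i ξ x) := by
  let J : A →L[ℂ] StrongDual ℂ (StrongDual ℂ A) := NormedSpace.inclusionInDoubleDual ℂ A
  let j : A →ₗ[ℂ] StrongDual ℂ X :=
    { toFun := fun x => (J x) ∘L i
      map_add' := fun x y => by ext f; simp
      map_smul' := fun c x => by ext f; simp }
  have hj : ∀ x ξ, j x ξ = i ξ x := fun _ _ => rfl
  have hn : ∀ x, ‖j x‖ = ‖x‖ := fun x => by
    apply le_antisymm
    · refine ContinuousLinearMap.opNorm_le_bound _ (norm_nonneg _) fun f => ?_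
      rw [hj, mul_comm]
      exact ((i f).le_opNorm x).trans (mul_le_mul_of_nonneg_right (hi f) (norm_nonneg _))
    · exact h2 x _ (norm_nonneg _) fun f => (j x).le_opNorm f
  let ji : A →ₗᵢ[ℂ] StrongDual ℂ X := ⟨j, hn⟩
  have hs : Function.Surjective ji := fun φ => by
    obtain ⟨x, hx⟩ := h1 φ
    refine ⟨x, ?_⟩
    ext f
    exact (hx f).symm
  exact ⟨LinearIsometryEquiv.ofSurjective ji hs, fun _ _ => rfl⟩

theorem isDualOf_sub {E : Type v} [NormedAddCommGroup E] [NormedSpace ℂ E]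
    (i : E →L[ℂ] StrongDual ℂ A) (hi : ∀ ξ, ‖i ξ‖ ≤ ‖ξ‖) (Q : Submodule ℂ E)
    (h1 : ∀ Φ : E →L[ℂ] ℂ, ∃ x : A, ∀ f ∈ Q, Φ f = i f x)
    (h2 : ∀ (x : A) (C : ℝ), 0 ≤ C → (∀ f ∈ Q, ‖i f x‖ ≤ C * ‖f‖) → ‖x‖ ≤ C) :
    IsDualOf A Q (fun x f => i f.1 x) := by
  refine isDualOf_gen (X := Q) (i ∘L Q.subtypeL) (fun f => hi f.1) (fun φ => ?_)
    fun x C hC h => ?_
  · obtain ⟨Φ, hΦ, -⟩ := exists_extension_norm_eq Q φ
    obtain ⟨x, hx⟩ := h1 Φ
    exact ⟨x, fun f => (hΦ f).symm.trans (hx f.1 f.2)⟩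
  · exact h2 x C hC fun f hf => h ⟨f, hf⟩

theorem isDualOf_of {Q : Submodule ℂ (StrongDual ℂ A)} (h1 : Refl Q) (h2 : Norming Q) :
    IsDualOf A Q (fun x f => f.1 x) :=
  isDualOf_sub (ContinuousLinearMap.id ℂ (StrongDual ℂ A)) (fun _ => le_rfl) Q h1 h2

theorem exists_ann {E : Type*} [NormedAddCommGroup E] [NormedSpace ℂ E] (Y : Submodule ℂ E)
    (hY : IsClosed (Y : Set E)) {f : E} (hf : f ∉ Y) :
    ∃ Φ : E →L[ℂ] ℂ, (∀ g ∈ Y, Φ g = 0) ∧ Φ f ≠ 0 := by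
  have h0 : ‖(Y.mkQL f : E ⧸ Y)‖ ≠ 0 := by
    rw [norm_ne_zero_iff]
    intro h
    exact hf ((Submodule.Quotient.mk_eq_zero Y).1 h)
  obtain ⟨g, -, hg⟩ := exists_dual_vector ℂ (Y.mkQL f : E ⧸ Y) h0
  refine ⟨g ∘L Y.mkQL, fun y hy => ?_, ?_⟩
  · have : Y.mkQL y = 0 := (Submodule.Quotient.mk_eq_zero Y).2 hy
    rw [ContinuousLinearMap.comp_apply, this, map_zero]
  · rw [ContinuousLinearMap.comp_apply, hg]
    exact RCLike.ofReal_ne_zero.2 h0

theorem le_closure_span {Q : Submodule ℂ (StrongDual ℂ A)} (h1 : Refl Q)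
    {Y : Set (StrongDual ℂ A)} (hYQ : Y ⊆ Q) (hsep : ∀ x : A, (∀ f ∈ Y, f x = 0) → x = 0) :
    Q ≤ (Submodule.span ℂ Y).topologicalClosure := by
  intro f hf
  by_contra hn
  obtain ⟨Φ, h0, hne⟩ := exists_ann _ (Submodule.isClosed_topologicalClosure _) hn
  obtain ⟨x, hx⟩ := h1 Φ
  have hx0 : x = 0 := hsep x fun g hg => by
    rw [← hx g (hYQ hg)]
    exact h0 g (Submodule.le_topologicalClosure _ (Submodule.subset_span hg))
  apply hne
  rw [hx f hf, hx0, map_zero]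

theorem normSeparable_of {Q : Submodule ℂ (StrongDual ℂ A)} (h1 : Refl Q)
    {Y : Set (StrongDual ℂ A)} (hYQ : Y ⊆ Q) (hsep : ∀ x : A, (∀ f ∈ Y, f x = 0) → x = 0)
    (hY : TopologicalSpace.IsSeparable Y) : NormSeparable A Q :=
  hY.span.closure.mono (le_closure_span h1 hYQ hsep)

theorem IsDualOf.exists_fun {X : Type v} [NormedAddCommGroup X] [NormedSpace ℂ X]
    {b : A → X → ℂ} (h : IsDualOf A X b) :
    ∃ j : X →ₗᵢ[ℂ] StrongDual ℂ A, (∀ ξ x, j ξ x = b x ξ) ∧ ∀ x, (∀ ξ, b x ξ = 0) → x = 0 := by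
  obtain ⟨e, he⟩ := h
  let J := NormedSpace.inclusionInDoubleDualLi (E := X) ℂ
  let j : X →ₗ[ℂ] StrongDual ℂ A :=
    { toFun := fun ξ => (J ξ) ∘L (e.toContinuousLinearEquiv : A →L[ℂ] StrongDual ℂ X)
      map_add' := fun x y => by ext f; simp
      map_smul' := fun c x => by ext f; simp }
  have hj : ∀ ξ x, j ξ x = e x ξ := fun _ _ => rfl
  have hn : ∀ ξ, ‖j ξ‖ = ‖ξ‖ := fun ξ => by
    apply le_antisymm
    · refine ContinuousLinearMap.opNorm_le_bound _ (norm_nonneg _) fun x => ?_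
      rw [← e.norm_map x, mul_comm]
      exact (e x).le_opNorm ξ
    · refine (J.norm_map ξ).symm.le.trans ?_
      refine ContinuousLinearMap.opNorm_le_bound _ (norm_nonneg _) fun φ => ?_
      obtain ⟨x, rfl⟩ := e.surjective φ
      rw [e.norm_map x]
      exact (j ξ).le_opNorm x
  refine ⟨⟨j, hn⟩, fun ξ x => he x ξ, fun x hx => ?_⟩
  apply e.injective
  rw [map_zero]
  ext ξ
  rw [he, hx]
  rfl

theorem unique_of {Q : Submodule ℂ (StrongDual ℂ A)} (h1 : Refl Q) {X : Type v}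
    [NormedAddCommGroup X] [NormedSpace ℂ X] [CompleteSpace X] {b : A → X → ℂ}
    (h : IsDualOf A X b) (hQ : ∀ (ξ : X) (f : StrongDual ℂ A), (∀ x, f x = b x ξ) → f ∈ Q) :
    ∃ j : X ≃ₗᵢ[ℂ] Q, ∀ ξ x, (j ξ).1 x = b x ξ := by
  obtain ⟨j, hj, hs⟩ := h.exists_fun
  have hjQ : ∀ ξ, j ξ ∈ Q := fun ξ => hQ ξ _ (hj ξ)
  let k : X →ₗᵢ[ℂ] Q := ⟨j.toLinearMap.codRestrict Q hjQ, fun ξ => j.norm_map ξ⟩
  have hc : IsClosed (Set.range j) := j.isometry.isClosedEmbedding.isClosed_range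
  have hk : Function.Surjective k := fun f => by
    have h2 := le_closure_span h1 (Y := Set.range j) (by rintro _ ⟨ξ, rfl⟩; exact hjQ ξ)
      (fun x hx => hs x fun ξ => by rw [← hj]; exact hx _ ⟨ξ, rfl⟩) f.2
    have h3 : Submodule.span ℂ (Set.range j) = LinearMap.range j.toLinearMap :=
      Submodule.span_eq (LinearMap.range j.toLinearMap)
    rw [h3] at h2
    have h4 : f.1 ∈ closure (Set.range j) := h2
    rw [hc.closure_eq] at h4
    obtain ⟨ξ, hξ⟩ := h4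
    exact ⟨ξ, Subtype.ext hξ⟩
  exact ⟨LinearIsometryEquiv.ofSurjective k hk, hj⟩

theorem sepDual_of {B : Type v} [NormedAddCommGroup B] [NormedSpace ℂ B]
    {Q : Submodule ℂ (StrongDual ℂ B)} (hc : IsClosed (Q : Set (StrongDual ℂ B)))
    (hs : NormSeparable B Q) (hd : IsDualOf B Q (fun x f => f.1 x)) (e : A ≃ₗᵢ[ℂ] B) :
    SepDual.{u, v} A := by
  obtain ⟨d, hd⟩ := hd
  exact ⟨Q, inferInstance, inferInstance, hc.completeSpace_coe, fun x f => (e.trans d) x f,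
    TopologicalSpace.IsSeparable.separableSpace hs, e.trans d, fun _ _ => rfl⟩

theorem normSeparable_of_sepDual {Q : Submodule ℂ (StrongDual ℂ A)} (h : IsPredual.{u, v} A Q)
    (hs : SepDual.{u, v} A) : NormSeparable A Q := by
  obtain ⟨X, _, _, _, b, hX, hb⟩ := hs
  obtain ⟨j, -⟩ := h.2 X b hb
  have h1 : TopologicalSpace.IsSeparable (Set.range fun ξ => (j ξ).1) :=
    TopologicalSpace.isSeparable_range (continuous_subtype_val.comp j.continuous)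
  refine h1.mono fun f hf => ?_
  obtain ⟨ξ, hξ⟩ := j.surjective ⟨f, hf⟩
  exact ⟨ξ, congrArg Subtype.val hξ⟩

end Vale.Agent.P085N34
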