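import Vale.Agent.P085N34.A

/-! The Jordan decomposition of a norm attaining, order continuous functional. -/

set_option linter.all false

open scoped Topology InnerProductSpace ComplexConjugate ComplexOrder
open Vale.Agent.P132 Vale.Agent.P085Z Vale.Agent.P132N34

namespace Vale.Agent.P085N34

universe u v

variable {H : Type u} [NormedAddCommGroup H] [InnerProductSpace ℂ H] [CompleteSpace H]

theorem norm_add_sq_le {a c : H →L[ℂ] H} (h : star a * c + star c * a = 0) :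
    ‖a + c‖ ^ 2 ≤ ‖a‖ ^ 2 + ‖c‖ ^ 2 := by
  have e : star (a + c) * (a + c) = star a * a + star c * c := by
    rw [star_add, add_mul, mul_add, mul_add]
    have : star c * a = -(star a * c) := by rw [eq_neg_iff_add_eq_zero, add_comm]; exact h
    rw [this]; abel
  rw [sq, sq, sq, ← CStarRing.norm_star_mul_self, ← CStarRing.norm_star_mul_self,
    ← CStarRing.norm_star_mul_self, e]
  exact norm_add_le _ _

theorem norm_le_one_of_sa {z : H →L[ℂ] H} (h1 : 0 ≤ 1 - z) (h2 : 0 ≤ 1 + z) : ‖z‖ ≤ 1 := by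
  have hz : IsSelfAdjoint z := by
    have := (IsSelfAdjoint.of_nonneg h2).sub (IsSelfAdjoint.one (H →L[ℂ] H))
    rwa [add_sub_cancel_left] at this
  have hc : Commute (1 - z) (1 + z) :=
    ((Commute.one_left _).sub_left ((Commute.one_right z).add_right (Commute.refl z)))
  have h3 := hc.mul_nonneg h1 h2
  have e : (1 - z) * (1 + z) = 1 - star z * z := by rw [hz.star_eq]; noncomm_ring
  rw [e, sub_nonneg, ← CStarAlgebra.norm_le_one_iff_of_nonneg _ (star_mul_self_nonneg z),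
    CStarRing.norm_star_mul_self] at h3
  nlinarith [norm_nonneg z]

theorem one_sub_nonneg {z : H →L[ℂ] H} (hz : star z = z) (h : ‖z‖ ≤ 1) : 0 ≤ 1 - z := by
  have h1 := IsSelfAdjoint.le_algebraMap_norm_self (a := z) hz
  rw [sub_nonneg]
  refine h1.trans ?_
  rw [← map_one (algebraMap ℝ (H →L[ℂ] H))]
  exact algebraMap_mono _ h

theorem eq_zero_of_quad {γ K : ℝ} (h : ∀ t : ℝ, t * γ ≤ K * t ^ 2) : γ = 0 := by
  have hL : 0 < |K| + 1 := by positivity
  have h1 := h (γ / (2 * (|K| + 1)))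
  have h2 : K * (γ / (2 * (|K| + 1))) ^ 2 ≤ (|K| + 1) * (γ / (2 * (|K| + 1))) ^ 2 :=
    mul_le_mul_of_nonneg_right (by linarith [le_abs_self K]) (sq_nonneg _)
  have h3 := h1.trans h2
  have e1 : γ / (2 * (|K| + 1)) * γ = 2 * (γ ^ 2 / (4 * (|K| + 1))) := by field_simp; ring
  have e2 : (|K| + 1) * (γ / (2 * (|K| + 1))) ^ 2 = γ ^ 2 / (4 * (|K| + 1)) := by
    field_simp; ring
  rw [e1, e2] at h3
  have h4 : γ ^ 2 / (4 * (|K| + 1)) ≤ 0 := by linarith
  rw [div_le_iff₀ (by positivity), zero_mul] at h4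
  exact pow_eq_zero_iff (two_ne_zero) |>.1 (le_antisymm h4 (sq_nonneg γ))

/-- the hermitian part -/
noncomputable def herm (F : (H →L[ℂ] H) →ₗ[ℂ] ℂ) : (H →L[ℂ] H) →ₗ[ℂ] ℂ where
  toFun x := (F x + conj (F (star x))) / 2
  map_add' x y := by rw [star_add, map_add, map_add, map_add]; ring
  map_smul' c x := by
    rw [star_smul, map_smul, map_smul, smul_eq_mul, smul_eq_mul, map_mul, RingHom.id_apply,
      smul_eq_mul, Complex.star_def, Complex.conj_conj]
    ring

theorem herm_sa (F : (H →L[ℂ] H) →ₗ[ℂ] ℂ) {x : H →L[ℂ] H} (hx : star x = x) :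
    herm F x = ((F x).re : ℂ) := by
  change (F x + conj (F (star x))) / 2 = _
  rw [hx, Complex.add_conj]; push_cast; ring

theorem herm_decomp (F : (H →L[ℂ] H) →ₗ[ℂ] ℂ) (x : H →L[ℂ] H) :
    F x = herm F x + Complex.I * herm ((-Complex.I) • F) x := by
  change _ = (F x + conj (F (star x))) / 2 +
    Complex.I * ((-Complex.I * F x + conj (-Complex.I * F (star x))) / 2)
  rw [map_mul, map_neg, Complex.conj_I]
  linear_combination (F x / 2 - conj (F (star x)) / 2) * Complex.I_mul_I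

/-- the real part attains its maximum on the self-adjoint ball -/
def Attains (M : VonNeumannAlgebra H) (F : (H →L[ℂ] H) →ₗ[ℂ] ℂ) (u : H →L[ℂ] H) : Prop :=
  u ∈ M ∧ star u = u ∧ ‖u‖ ≤ 1 ∧ ∀ z ∈ M, star z = z → ‖z‖ ≤ 1 → (F z).re ≤ (F u).re

/-- order continuity -/
def OrdCont (M : VonNeumannAlgebra H) (F : (H →L[ℂ] H) →ₗ[ℂ] ℂ) : Prop :=
  ∀ D : Set (H →L[ℂ] H), D.Nonempty → DirectedOn (· ≤ ·) D → (∀ d ∈ D, d ∈ M ∧ 0 ≤ d) →
    ∀ c ∈ M, IsLUB D c → c ≤ 1 → ∀ ε > 0, ∃ d ∈ D, ‖F c - F d‖ < ε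

variable {M : VonNeumannAlgebra H} {F : (H →L[ℂ] H) →ₗ[ℂ] ℂ}

theorem smul_mem' (c : ℂ) {x : H →L[ℂ] H} (hx : x ∈ M) : c • x ∈ M :=
  M.toStarSubalgebra.smul_mem hx c

theorem star_real_smul (t : ℝ) {x : H →L[ℂ] H} (hx : star x = x) :
    star ((t : ℂ) • x) = (t : ℂ) • x := by
  rw [star_smul, hx, Complex.star_def, Complex.conj_ofReal]

theorem Attains.le {u z : H →L[ℂ] H} (h : Attains M F u) (hz : z ∈ M) (hs : star z = z) {r : ℝ}
    (hr : 0 < r) (hn : ‖z‖ ≤ r) : (F z).re ≤ (F u).re * r := by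
  have h1 := h.2.2.2 (((r⁻¹ : ℝ) : ℂ) • z) (smul_mem' _ hz) (star_real_smul _ hs) (by
    rw [norm_smul, Complex.norm_real, Real.norm_eq_abs, abs_of_pos (inv_pos.2 hr)]
    exact (inv_mul_le_iff₀ hr).2 (by linarith))
  rw [map_smul, smul_eq_mul, Complex.re_ofReal_mul] at h1
  have := (inv_mul_le_iff₀ hr).1 h1
  linarith

theorem Attains.exists_proj {u : H →L[ℂ] H} (h : Attains M F u) :
    ∃ p ∈ M, star p = p ∧ p * p = p ∧ Attains M F (p - (1 - p)) := by
  obtain ⟨hu, hs, hn, hmax⟩ := h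
  obtain ⟨p, hps, hpp, hpM, hc, h1, h2⟩ := exists_spec hs
  have hp : p ∈ M := hpM M hu
  have hq : star (1 - p) = 1 - p := by rw [star_sub, star_one, hps]
  have hqq : (1 - p) * (1 - p) = 1 - p := by
    rw [mul_sub, mul_one, sub_mul, one_mul, hpp, sub_self, sub_zero]
  have hss : star (p - (1 - p)) = p - (1 - p) := by rw [star_sub, hq, hps]
  have hsM : p - (1 - p) ∈ M := sub_mem hp (sub_mem (one_mem M) hp)
  have hsn : ‖p - (1 - p)‖ ≤ 1 := by
    refine norm_le_one_of_sa ?_ ?_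
    · have : 1 - (p - (1 - p)) = (1 - p) + (1 - p) := by abel
      rw [this]
      exact add_nonneg (proj_nonneg hq hqq) (proj_nonneg hq hqq)
    · have : 1 + (p - (1 - p)) = p + p := by abel
      rw [this]
      exact add_nonneg (proj_nonneg hps hpp) (proj_nonneg hps hpp)
  refine ⟨p, hp, hps, hpp, hsM, hss, hsn, fun z hz hzs hzn => (hmax z hz hzs hzn).trans ?_⟩
  have k1 : 0 ≤ p * (1 - u) * p := IsSelfAdjoint.conjugate_nonneg (one_sub_nonneg hs hn) hps
  have k2 : 0 ≤ (1 - p) * (1 - -u) * (1 - p) :=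
    IsSelfAdjoint.conjugate_nonneg (one_sub_nonneg (by rw [star_neg, hs]) (by rwa [norm_neg])) hq
  have hpu : p * u * p = u * p := by rw [← hc, mul_assoc, hpp]
  have e1 : p * (1 - u) * p = p - u * p := by rw [mul_sub, sub_mul, mul_one, hpp, hpu]
  have e2 : (1 - p) * (1 - -u) * (1 - p) = (1 - p) + u * (1 - p) := by
    have : (1 - p) * (1 - -u) * (1 - p) =
      1 - p - p + p * p + u - u * p - p * u + p * u * p := by noncomm_ring
    rw [this, hpp, hpu, ← hc]; noncomm_ring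
  rw [e1] at k1
  rw [e2] at k2
  have h3 := hmax (u + u - (p - (1 - p))) (sub_mem (add_mem hu hu) hsM)
    (by rw [star_sub, star_add, hs, hss]) (by
      refine norm_le_one_of_sa ?_ ?_
      · have : 1 - (u + u - (p - (1 - p))) =
          (p - u * p) + (p - u * p) + -(u * (1 - p)) + -(u * (1 - p)) := by noncomm_ring
        rw [this]
        exact add_nonneg (add_nonneg (add_nonneg k1 k1) (neg_nonneg.2 h2)) (neg_nonneg.2 h2)
      · have : 1 + (u + u - (p - (1 - p))) =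
          ((1 - p) + u * (1 - p)) + ((1 - p) + u * (1 - p)) + u * p + u * p := by noncomm_ring
        rw [this]
        exact add_nonneg (add_nonneg (add_nonneg k2 k2) h1) h1)
  rw [map_sub, map_add, Complex.sub_re, Complex.add_re] at h3
  linarith

/-- compression of a functional -/
noncomputable def cmp (G : (H →L[ℂ] H) →ₗ[ℂ] ℂ) (p : H →L[ℂ] H) : (H →L[ℂ] H) →ₗ[ℂ] ℂ :=
  G ∘ₗ LinearMap.mulLeftRight ℂ (p, p)

theorem cmp_apply (G : (H →L[ℂ] H) →ₗ[ℂ] ℂ) (p x : H →L[ℂ] H) : cmp G p x = G (p * x * p) := rfl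

theorem star_cmp {p x : H →L[ℂ] H} (hp : star p = p) (hx : star x = x) :
    star (p * x * p) = p * x * p := by rw [star_mul, star_mul, hp, hx, mul_assoc]

theorem posOn_cmp {p : H →L[ℂ] H} (hp : p ∈ M) (hps : star p = p) (hpp : p * p = p)
    (h : Attains M F (p - (1 - p))) : PosOn M (cmp (herm F) p) := by
  intro x hx h0
  have hxs : star x = x := (IsSelfAdjoint.of_nonneg h0).star_eq
  rw [cmp_apply, herm_sa F (star_cmp hps hxs), Complex.ofReal_re, Complex.ofReal_im]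
  refine ⟨?_, rfl⟩
  have hq : star (1 - p) = 1 - p := by rw [star_sub, star_one, hps]
  have hqq : (1 - p) * (1 - p) = 1 - p := by
    rw [mul_sub, mul_one, sub_mul, one_mul, hpp, sub_self, sub_zero]
  obtain ⟨r, hr⟩ : ∃ r : ℝ, r = (‖x‖ + 1)⁻¹ := ⟨_, rfl⟩
  have hr0 : 0 < r := by rw [hr]; positivity
  obtain ⟨y, hy⟩ : ∃ y, y = (r : ℂ) • x := ⟨_, rfl⟩
  have hys : star y = y := by rw [hy]; exact star_real_smul r hxs
  have hy0 : 0 ≤ y := by rw [hy]; exact smul_nonneg (Complex.zero_le_real.2 hr0.le) h0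
  have hy1 : ‖y‖ ≤ 1 := by
    rw [hy, norm_smul, Complex.norm_real, Real.norm_eq_abs, abs_of_pos hr0, hr]
    exact (inv_mul_le_iff₀ (by positivity)).2 (by linarith)
  have hyM : y ∈ M := by rw [hy]; exact smul_mem' _ hx
  have k1 : 0 ≤ p * y * p := IsSelfAdjoint.conjugate_nonneg hy0 hps
  have k2 : 0 ≤ p * (1 - y) * p := IsSelfAdjoint.conjugate_nonneg (one_sub_nonneg hys hy1) hps
  have h3 := h.2.2.2 (p - (1 - p) - p * y * p) (sub_mem h.1 (mul_mem (mul_mem hp hyM) hp))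
    (by rw [star_sub, h.2.1, star_cmp hps hys]) (by
      refine norm_le_one_of_sa ?_ ?_
      · have : 1 - (p - (1 - p) - p * y * p) = (1 - p) + (1 - p) + p * y * p := by abel
        rw [this]
        exact add_nonneg (add_nonneg (proj_nonneg hq hqq) (proj_nonneg hq hqq)) k1
      · have : 1 + (p - (1 - p) - p * y * p) = p + p * (1 - y) * p := by
          rw [mul_sub, sub_mul, mul_one, hpp]; abel
        rw [this]
        exact add_nonneg (proj_nonneg hps hpp) k2)
  rw [map_sub, Complex.sub_re, hy, mul_smul_comm, smul_mul_assoc, map_smul, smul_eq_mul,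
    Complex.re_ofReal_mul] at h3
  by_contra hn
  push Not at hn
  nlinarith

theorem isLUB_cmp {p g : H →L[ℂ] H} (hps : star p = p) {D : Set (H →L[ℂ] H)} (hne : D.Nonempty)
    (hdir : DirectedOn (· ≤ ·) D) (hD : ∀ g ∈ D, g ∈ M ∧ IsStarProjection g) (hg : IsLUB D g) :
    g ∈ M ∧ IsStarProjection g ∧ IsLUB ((fun e => p * e * p) '' D) (p * g * p) := by
  obtain ⟨g', hM, hgp, hl, hap⟩ := exists_sup_proj hne hdir hD
  obtain rfl := hg.unique hl
  refine ⟨hM, hgp, ?_, fun y hy => ?_⟩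
  · rintro _ ⟨e, he, rfl⟩
    exact IsSelfAdjoint.conjugate_le_conjugate (hg.1 he) hps
  · have hle : ∀ e ∈ D, p * e * p ≤ y := fun e he => hy ⟨e, he, rfl⟩
    obtain ⟨e0, he0⟩ := hne
    have hys : IsSelfAdjoint y := IsSelfAdjoint.of_nonneg
      ((IsSelfAdjoint.conjugate_nonneg (hD e0 he0).2.nonneg hps).trans (hle e0 he0))
    rw [← sub_nonneg]
    refine nonneg_of_inner (hys.sub (star_cmp hps hgp.isSelfAdjoint.star_eq)) fun ζ => ?_
    have hi : ∀ a : H →L[ℂ] H, ⟪ζ, (p * a * p) ζ⟫_ℂ = ⟪p ζ, a (p ζ)⟫_ℂ := fun a => by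
      rw [← inner_star_right p, hps]; rfl
    rw [ContinuousLinearMap.sub_apply, inner_sub_right, Complex.sub_re, hi, sub_nonneg]
    refine le_of_forall_pos_le_add fun ε hε => ?_
    obtain ⟨e, he, hd⟩ := hap (p ζ) (ε / (‖p ζ‖ + 1)) (by positivity)
    have k1 := inner_le_of_le (hle e he) ζ
    rw [hi] at k1
    have k2 : (⟪p ζ, g (p ζ) - e (p ζ)⟫_ℂ).re ≤ ε := by
      refine (Complex.re_le_norm _).trans ((norm_inner_le_norm _ _).trans ?_)
      rw [lt_div_iff₀ (by positivity)] at hd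
      nlinarith [norm_nonneg (g (p ζ) - e (p ζ)), norm_nonneg (p ζ)]
    rw [inner_sub_right, Complex.sub_re] at k2
    linarith

theorem projNormal_cmp {p : H →L[ℂ] H} (hp : p ∈ M) (hps : star p = p) (hpp : p * p = p)
    (h : OrdCont M F) : ProjNormal M (cmp (herm F) p) := by
  intro D hne hdir hD g hg ε hε
  obtain ⟨hgM, hgp, hl⟩ := isLUB_cmp hps hne hdir hD hg
  have hdir' : DirectedOn (· ≤ ·) ((fun e => p * e * p) '' D) := by
    rintro _ ⟨a, ha, rfl⟩ _ ⟨b, hb, rfl⟩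
    obtain ⟨c, hc, h1, h2⟩ := hdir a ha b hb
    exact ⟨_, ⟨c, hc, rfl⟩, IsSelfAdjoint.conjugate_le_conjugate h1 hps,
      IsSelfAdjoint.conjugate_le_conjugate h2 hps⟩
  have hD' : ∀ d ∈ (fun e => p * e * p) '' D, d ∈ M ∧ 0 ≤ d := by
    rintro _ ⟨e, he, rfl⟩
    exact ⟨mul_mem (mul_mem hp (hD e he).1) hp,
      IsSelfAdjoint.conjugate_nonneg (hD e he).2.nonneg hps⟩
  have h1 : p * g * p ≤ 1 := by
    have h1 := IsSelfAdjoint.conjugate_le_conjugate hgp.le_one hps
    rw [mul_one, hpp] at h1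
    exact h1.trans (IsStarProjection.le_one ⟨hpp, hps⟩)
  obtain ⟨_, ⟨e, he, rfl⟩, hd⟩ := h _ (hne.image _) hdir' hD' _ (mul_mem (mul_mem hp hgM) hp) hl
    h1 ε hε
  refine ⟨e, he, ?_⟩
  rw [cmp_apply, cmp_apply, herm_sa F (star_cmp hps hgp.isSelfAdjoint.star_eq),
    herm_sa F (star_cmp hps (hD e he).2.isSelfAdjoint.star_eq), Complex.ofReal_re,
    Complex.ofReal_re]
  have := (Complex.re_le_norm _).trans_lt hd
  rw [Complex.sub_re] at this
  linarith

theorem offdiag {p : H →L[ℂ] H} (hp : p ∈ M) (hps : star p = p) (hpp : p * p = p)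
    (h : Attains M F (p - (1 - p))) {x : H →L[ℂ] H} (hx : x ∈ M) (hxs : star x = x) :
    herm F x = cmp (herm F) p x + cmp (herm F) (1 - p) x := by
  have hq : star (1 - p) = 1 - p := by rw [star_sub, star_one, hps]
  have hqM : 1 - p ∈ M := sub_mem (one_mem M) hp
  obtain ⟨y, hy⟩ : ∃ y, y = x - (p * x * p + (1 - p) * x * (1 - p)) := ⟨_, rfl⟩
  have hys : star y = y := by
    rw [hy, star_sub, star_add, hxs, star_cmp hps hxs, star_cmp hq hxs]
  have hyM : y ∈ M := by
    rw [hy]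
    exact sub_mem hx (add_mem (mul_mem (mul_mem hp hx) hp) (mul_mem (mul_mem hqM hx) hqM))
  have hanti : (p - (1 - p)) * y + y * (p - (1 - p)) = 0 := by
    have : (p - (1 - p)) * y + y * (p - (1 - p)) =
      2 * (p * p - p) * x + 2 * x * (p * p - p) - 4 * (p * p - p) * x * p
        - 4 * p * x * (p * p - p) := by rw [hy]; noncomm_ring
    rw [this, hpp, sub_self]; simp
  have h0 : (F y).re = 0 := by
    refine eq_zero_of_quad (K := (F (p - (1 - p))).re * (‖y‖ ^ 2 / 2)) fun t => ?_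
    have k1 := norm_add_sq_le (a := p - (1 - p)) (c := (t : ℂ) • y) (by
      rw [h.2.1, star_real_smul t hys, mul_smul_comm, smul_mul_assoc, ← smul_add, hanti,
        smul_zero])
    rw [norm_smul, Complex.norm_real, mul_pow, Real.norm_eq_abs, sq_abs] at k1
    have k2 := h.le (z := p - (1 - p) + (t : ℂ) • y) (add_mem h.1 (smul_mem' _ hyM))
      (by rw [star_add, h.2.1, star_real_smul t hys]) (r := 1 + t ^ 2 * ‖y‖ ^ 2 / 2)
      (by positivity) (by
        have := h.2.2.1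
        nlinarith [sq_nonneg (‖p - (1 - p) + (t : ℂ) • y‖ - 1), norm_nonneg (p - (1 - p))])
    rw [map_add, map_smul, smul_eq_mul, Complex.add_re, Complex.re_ofReal_mul] at k2
    linarith
  rw [cmp_apply, cmp_apply, ← map_add, ← sub_eq_zero, ← map_sub, ← hy, herm_sa F hys, h0,
    Complex.ofReal_zero]

theorem herm_neg (F : (H →L[ℂ] H) →ₗ[ℂ] ℂ) (x : H →L[ℂ] H) : herm (-F) x = -herm F x := by
  change (-F x + conj (-F (star x))) / 2 = -((F x + conj (F (star x))) / 2)
  rw [map_neg]; ring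

theorem jordan {u : H →L[ℂ] H} (h : Attains M F u) (ho : OrdCont M F) :
    ∃ W W' : EllTwo H, ∀ x ∈ M, herm F x = ⟪W, amp x W⟫_ℂ - ⟪W', amp x W'⟫_ℂ := by
  obtain ⟨p, hp, hps, hpp, hs⟩ := h.exists_proj
  have hq : star (1 - p) = 1 - p := by rw [star_sub, star_one, hps]
  have hqM : 1 - p ∈ M := sub_mem (one_mem M) hp
  have hqq : (1 - p) * (1 - p) = 1 - p := by
    rw [mul_sub, mul_one, sub_mul, one_mul, hpp, sub_self, sub_zero]
  have e : 1 - p - (1 - (1 - p)) = -(p - (1 - p)) := by abel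
  have hs' : Attains M (-F) (1 - p - (1 - (1 - p))) := by
    rw [e]
    refine ⟨neg_mem hs.1, by rw [star_neg, hs.2.1], by rw [norm_neg]; exact hs.2.2.1,
      fun z hz hzs hzn => ?_⟩
    have := hs.2.2.2 (-z) (neg_mem hz) (by rw [star_neg, hzs]) (by rwa [norm_neg])
    rw [LinearMap.neg_apply, LinearMap.neg_apply, map_neg, neg_neg, ← map_neg]
    exact this
  have ho' : OrdCont M (-F) := fun D h1 h2 h3 c h4 h5 h6 ε hε => by
    obtain ⟨d, hd, k⟩ := ho D h1 h2 h3 c h4 h5 h6 ε hε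
    refine ⟨d, hd, ?_⟩
    rwa [LinearMap.neg_apply, LinearMap.neg_apply, ← neg_sub', norm_neg]
  obtain ⟨W, hW⟩ := exists_vec (posOn_cmp hp hps hpp hs) (projNormal_cmp hp hps hpp ho)
  obtain ⟨W', hW'⟩ := exists_vec (posOn_cmp hqM hq hqq hs') (projNormal_cmp hqM hq hqq ho')
  refine ⟨W, W', fun x hx => ?_⟩
  have key : herm F x = cmp (herm F) p x + cmp (herm F) (1 - p) x := by
    have ha := offdiag hp hps hpp hs (x := x + star x) (add_mem hx (star_mem hx))
      (by rw [star_add, star_star, add_comm])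
    have hb := offdiag hp hps hpp hs (x := Complex.I • (x - star x))
      (smul_mem' _ (sub_mem hx (star_mem hx)))
      (by rw [star_smul, star_sub, star_star, Complex.star_def, Complex.conj_I, neg_smul,
        ← smul_neg, neg_sub])
    simp only [map_add, map_smul, map_sub, smul_eq_mul] at ha hb
    linear_combination ha / 2 - Complex.I / 2 * hb + (herm F x - herm F (star x) -
      (cmp (herm F) p x - cmp (herm F) p (star x)) -
      (cmp (herm F) (1 - p) x - cmp (herm F) (1 - p) (star x))) / 2 * Complex.I_mul_I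
  rw [key, ← hW x hx, ← hW' x hx, cmp_apply, cmp_apply, cmp_apply, herm_neg, sub_neg_eq_add]

end Vale.Agent.P085N34
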