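import Vale.Agent.P085N34.J
import Mathlib.Analysis.Normed.Module.WeakDual

/-! Uniqueness of the predual. -/

set_option linter.all false

open scoped Topology InnerProductSpace ComplexConjugate ComplexOrder
open Vale.Agent.P132 Vale.Agent.P085Z Vale.Agent.P132N34

namespace Vale.Agent.P085N34

universe u v

theorem IsDualOf.exists_top {A : Type u} [NormedAddCommGroup A] [NormedSpace ℂ A] {X : Type v}
    [NormedAddCommGroup X] [NormedSpace ℂ X] {b : A → X → ℂ} (h : IsDualOf A X b) :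
    ∃ τ : TopologicalSpace A, (∀ (a : A) (r : ℝ), @IsCompact A τ {y | ‖y - a‖ ≤ r} ∧
      IsClosed[τ] {y | ‖y - a‖ ≤ r}) ∧ ∀ ξ, Continuous[τ, inferInstance] fun x => b x ξ := by
  obtain ⟨e, he⟩ := h
  let w : A → WeakDual ℂ X := fun x => StrongDual.toWeakDual (e x)
  have hs : Function.Surjective w := StrongDual.toWeakDual.surjective.comp e.surjective
  have hb : ∀ (a : A) (r : ℝ), {y | ‖y - a‖ ≤ r} =
      w ⁻¹' (WeakDual.toStrongDual ⁻¹' Metric.closedBall (e a) r) := fun a r => by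
    ext y
    change _ ↔ dist (e y) (e a) ≤ r
    rw [e.dist_map, dist_eq_norm]
    rfl
  refine ⟨TopologicalSpace.induced w inferInstance, fun a r => ?_, fun ξ => ?_⟩
  · rw [hb]
    letI : TopologicalSpace A := TopologicalSpace.induced w inferInstance
    have hi : Topology.IsInducing w := ⟨rfl⟩
    exact ⟨hi.isCompact_preimage (by rw [hs.range_eq]; exact isClosed_univ)
      (WeakDual.isCompact_closedBall _ _), (WeakDual.isClosed_closedBall _ _).preimage hi.continuous⟩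
  · letI : TopologicalSpace A := TopologicalSpace.induced w inferInstance
    have hi : Topology.IsInducing w := ⟨rfl⟩
    have : (fun x => b x ξ) = (fun φ : WeakDual ℂ X => φ ξ) ∘ w := funext fun x => (he x ξ).symm
    rw [this]
    exact (WeakDual.eval_continuous ξ).comp hi.continuous

variable {H : Type u} [NormedAddCommGroup H] [InnerProductSpace ℂ H] [CompleteSpace H]

theorem saBall_iff (z : H →L[ℂ] H) : (star z = z ∧ ‖z‖ ≤ 1) ↔
    ∀ t : ℝ, ‖z - ((t : ℂ) * Complex.I) • (1 : H →L[ℂ] H)‖ ≤ √(1 + t ^ 2) := by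
  constructor
  · rintro ⟨hs, hn⟩ t
    have k := norm_add_sq_le (a := z) (c := -(((t : ℂ) * Complex.I) • (1 : H →L[ℂ] H))) (by
      rw [hs, star_neg, star_smul, star_one, Complex.star_def, map_mul, Complex.conj_ofReal,
        Complex.conj_I, mul_neg, mul_neg, neg_smul, neg_neg, mul_smul_comm, smul_mul_assoc,
        mul_one, one_mul, neg_add_cancel])
    have k2 : ‖-(((t : ℂ) * Complex.I) • (1 : H →L[ℂ] H))‖ ≤ |t| := by
      rw [norm_neg, norm_smul, norm_mul, Complex.norm_I, Complex.norm_real, mul_one]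
      exact mul_le_of_le_one_right (abs_nonneg t) ContinuousLinearMap.norm_id_le
    rw [← sub_eq_add_neg] at k
    refine Real.le_sqrt_of_sq_le (k.trans (add_le_add ?_ ?_))
    · nlinarith [norm_nonneg z]
    · rw [← sq_abs t]
      exact pow_le_pow_left₀ (norm_nonneg _) k2 2
  · intro h
    refine ⟨?_, by simpa using h 0⟩
    change IsSelfAdjoint z
    rw [ContinuousLinearMap.isSelfAdjoint_iff_isSymmetric,
      LinearMap.isSymmetric_iff_inner_map_self_real]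
    intro ζ
    rw [Complex.conj_eq_iff_im]
    change (⟪z ζ, ζ⟫_ℂ).im = 0
    obtain ⟨m, hm⟩ : ∃ m, m = (⟪z ζ, ζ⟫_ℂ).im := ⟨_, rfl⟩
    obtain ⟨n, hn⟩ : ∃ n, n = ‖ζ‖ ^ 2 := ⟨_, rfl⟩
    have key : ∀ t : ℝ, m ^ 2 + 2 * m * n * t ≤ n ^ 2 := fun t => by
      have k1 := norm_inner_le_norm (𝕜 := ℂ)
        ((z - ((t : ℂ) * Complex.I) • (1 : H →L[ℂ] H)) ζ) ζ
      have k2 := (z - ((t : ℂ) * Complex.I) • (1 : H →L[ℂ] H)).le_of_opNorm_le (h t) ζ
      have k3 : (⟪(z - ((t : ℂ) * Complex.I) • (1 : H →L[ℂ] H)) ζ, ζ⟫_ℂ).im = m + t * n := by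
        rw [ContinuousLinearMap.sub_apply, inner_sub_left, ContinuousLinearMap.smul_apply,
          inner_smul_left, ContinuousLinearMap.one_apply, inner_self_eq_norm_sq_to_K, hm, hn,
          map_mul, Complex.conj_ofReal, Complex.conj_I, Complex.sub_im]
        norm_cast
        simp
        exact Or.inl (by norm_cast)
      have k4 : |m + t * n| ≤ √(1 + t ^ 2) * n := by
        rw [← k3]
        refine (Complex.abs_im_le_norm _).trans (k1.trans ?_)
        rw [hn, sq ‖ζ‖, ← mul_assoc]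
        exact mul_le_mul_of_nonneg_right k2 (norm_nonneg _)
      have k5 := pow_le_pow_left₀ (abs_nonneg _) k4 2
      rw [sq_abs, mul_pow, Real.sq_sqrt (by positivity)] at k5
      nlinarith
    rw [← hm]
    by_contra h0
    have hn0 : n ≠ 0 := by
      intro h1
      have := key 0
      rw [h1] at this
      exact h0 (pow_eq_zero_iff two_ne_zero |>.1 (le_antisymm (by linarith) (sq_nonneg m)))
    have := key (n / (2 * m))
    have e : 2 * m * n * (n / (2 * m)) = n ^ 2 := by field_simp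
    rw [e] at this
    exact h0 (pow_eq_zero_iff two_ne_zero |>.1 (le_antisymm (by linarith) (sq_nonneg m)))

theorem posBall_iff (z : H →L[ℂ] H) : (0 ≤ z ∧ z ≤ 1) ↔
    (star z = z ∧ ‖z‖ ≤ 1) ∧ ‖z - 1‖ ≤ 1 := by
  constructor
  · rintro ⟨h0, h1⟩
    refine ⟨⟨(IsSelfAdjoint.of_nonneg h0).star_eq, norm_le_one_of_le h0 h1⟩,
      norm_le_one_of_sa ?_ ?_⟩
    · have : 1 - (z - 1) = (1 - z) + 1 := by abel
      rw [this]
      exact add_nonneg (sub_nonneg.2 h1) zero_le_one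
    · rwa [add_sub_cancel]
  · rintro ⟨⟨hs, hn⟩, h1⟩
    refine ⟨?_, sub_nonneg.1 (one_sub_nonneg hs hn)⟩
    have := one_sub_nonneg (z := 1 - z) (by rw [star_sub, star_one, hs]) (by rwa [norm_sub_rev])
    rwa [sub_sub_cancel] at this

section Top

variable {M : StarSubalgebra ℂ (H →L[ℂ] H)} (τ : TopologicalSpace M)
  (hτ : ∀ (a : M) (r : ℝ), IsCompact {y : M | ‖y.1 - a.1‖ ≤ r} ∧
    IsClosed {y : M | ‖y.1 - a.1‖ ≤ r})
include hτ

theorem closed_sa (a : M) :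
    IsClosed {y : M | star (y.1 - a.1) = y.1 - a.1 ∧ ‖y.1 - a.1‖ ≤ 1} := by
  simp only [saBall_iff, Set.setOf_forall]
  refine isClosed_iInter fun t => ?_
  have := (hτ (a + ((t : ℂ) * Complex.I) • 1) √(1 + t ^ 2)).2
  simp only [sub_sub]
  exact this

theorem closed_pos (a : M) : IsClosed {y : M | 0 ≤ y.1 - a.1 ∧ y.1 - a.1 ≤ 1} := by
  simp only [posBall_iff, Set.setOf_and (p := fun y : M => _ ∧ _)]
  refine (closed_sa τ hτ a).inter ?_
  have := (hτ (a + 1) 1).2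
  simp only [sub_sub]
  exact this

theorem closed_icc (d c : M) (h0 : 0 ≤ d.1) (h1 : c.1 ≤ 1) :
    IsCompact {y : M | d.1 ≤ y.1 ∧ y.1 ≤ c.1} ∧ IsClosed {y : M | d.1 ≤ y.1 ∧ y.1 ≤ c.1} := by
  have hc : IsClosed {y : M | d.1 ≤ y.1 ∧ y.1 ≤ c.1} := by
    have e : {y : M | d.1 ≤ y.1 ∧ y.1 ≤ c.1} = {y : M | 0 ≤ y.1 - d.1 ∧ y.1 - d.1 ≤ 1} ∩
        {y : M | 0 ≤ y.1 - (c - 1).1 ∧ y.1 - (c - 1).1 ≤ 1} := by
      ext y
      have e1 : y.1 - (c - 1).1 = y.1 + (1 - c.1) := by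
        change y.1 - (c.1 - 1) = _
        abel
      have e2 : y.1 + (1 - c.1) ≤ 1 ↔ y.1 ≤ c.1 := by
        rw [← sub_nonneg, ← sub_nonneg (a := c.1)]
        have : 1 - (y.1 + (1 - c.1)) = c.1 - y.1 := by abel
        rw [this]
      simp only [Set.mem_inter_iff, Set.mem_setOf_eq]
      rw [e1, e2]
      exact ⟨fun h => ⟨⟨sub_nonneg.2 h.1, ((sub_le_self _ h0).trans h.2).trans h1⟩,
        add_nonneg (h0.trans h.1) (sub_nonneg.2 h1), h.2⟩, fun h => ⟨sub_nonneg.1 h.1.1, h.2.2⟩⟩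
    rw [e]
    exact (closed_pos τ hτ d).inter (closed_pos τ hτ (c - 1))
  refine ⟨(hτ 0 1).1.of_isClosed_subset hc fun y hy => ?_, hc⟩
  change ‖y.1 - 0‖ ≤ 1
  rw [sub_zero]
  exact norm_le_one_of_le (h0.trans hy.1) (hy.2.trans h1)

variable (hM : IsVN M) {F : (H →L[ℂ] H) →ₗ[ℂ] ℂ} (hF : Continuous fun y : M => F y.1)
include hF

theorem exists_attains : ∃ u, Attains (ofClosed M hM) F u := by
  have hc := closed_sa τ hτ 0
  have hk := (hτ 0 1).1.of_isClosed_subset hc fun y hy => hy.2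
  obtain ⟨u, hu, hmax⟩ := hk.exists_isMaxOn ⟨0, by simp⟩
    (Complex.continuous_re.comp hF).continuousOn
  have e : ∀ y : M, y.1 - (0 : M).1 = y.1 := fun y => sub_zero _
  simp only [e] at hu hmax
  exact ⟨u.1, u.2, hu.1, hu.2, fun z hz h1 h2 => hmax (a := ⟨z, hz⟩) ⟨h1, h2⟩⟩

theorem ordCont : OrdCont (ofClosed M hM) F := by
  intro D hne hdir hD c hc hl h1 ε hε
  by_contra hn
  push Not at hn
  haveI : Nonempty D := hne.to_subtype
  have hcl : IsClosed {y : M | ε ≤ ‖F c - F y.1‖} :=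
    isClosed_le continuous_const (continuous_const.sub hF).norm
  have hi := fun d : D => closed_icc τ hτ ⟨d.1, (hD d.1 d.2).1⟩ ⟨c, hc⟩ (hD d.1 d.2).2 h1
  obtain ⟨y, hy⟩ := IsCompact.nonempty_iInter_of_directed_nonempty_isCompact_isClosed
    (fun d : D => {y : M | d.1 ≤ y.1 ∧ y.1 ≤ c} ∩ {y : M | ε ≤ ‖F c - F y.1‖})
    (fun a b => by
      obtain ⟨d, hd, k1, k2⟩ := hdir a.1 a.2 b.1 b.2
      exact ⟨⟨d, hd⟩, fun y hy => ⟨⟨k1.trans hy.1.1, hy.1.2⟩, hy.2⟩,
        fun y hy => ⟨⟨k2.trans hy.1.1, hy.1.2⟩, hy.2⟩⟩)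
    (fun d => ⟨⟨d.1, (hD d.1 d.2).1⟩, ⟨le_rfl, hl.1 d.2⟩, hn d.1 d.2⟩)
    (fun d => (hi d).1.inter_right hcl) (fun d => (hi d).2.inter hcl)
  rw [Set.mem_iInter] at hy
  obtain ⟨d0, hd0⟩ := hne
  have h2 : y.1 = c := le_antisymm (hy ⟨d0, hd0⟩).1.2 (hl.2 fun d hd => (hy ⟨d, hd⟩).1.1)
  have h3 : ε ≤ ‖F c - F y.1‖ := (hy ⟨d0, hd0⟩).2
  rw [h2, sub_self, norm_zero] at h3
  exact absurd h3 (not_le.2 hε)

include hM

theorem herm_eq : ∃ W W' : EllTwo H, ∀ x ∈ M, herm F x = ⟪W, amp x W⟫_ℂ - ⟪W', amp x W'⟫_ℂ := by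
  obtain ⟨u, hu⟩ := exists_attains τ hτ hM hF
  exact jordan hu (ordCont τ hτ hM hF)

theorem exists_normal : ∃ g : (H →L[ℂ] H) → ℂ, Continuous[sigmaWeak H, inferInstance] g ∧
    ∀ x ∈ M, F x = g x := by
  obtain ⟨W1, W2, h1⟩ := herm_eq τ hτ hM hF
  obtain ⟨W3, W4, h2⟩ := herm_eq τ hτ hM (F := (-Complex.I) • F) (hF.const_smul (-Complex.I))
  refine ⟨fun x => ⟪W1, amp x W1⟫_ℂ - ⟪W2, amp x W2⟫_ℂ +
    Complex.I * (⟪W3, amp x W3⟫_ℂ - ⟪W4, amp x W4⟫_ℂ), ?_, fun x hx => ?_⟩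
  · letI : TopologicalSpace (H →L[ℂ] H) := sigmaWeak H
    exact ((cont_amp W1 W1).sub (cont_amp W2 W2)).add
      (continuous_const.mul ((cont_amp W3 W3).sub (cont_amp W4 W4)))
  · rw [herm_decomp F x, h1 x hx, h2 x hx]

end Top

variable {M : StarSubalgebra ℂ (H →L[ℂ] H)}

theorem mem_predual_of_dual (hM : IsVN M) {X : Type v} [NormedAddCommGroup X] [NormedSpace ℂ X]
    {b : M → X → ℂ} (h : IsDualOf M X b) (ξ : X) (f : StrongDual ℂ M) (hf : ∀ x, f x = b x ξ) :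
    f ∈ predual M := by
  obtain ⟨F, hF⟩ := LinearMap.exists_extend (p := Subalgebra.toSubmodule M.toSubalgebra)
    f.toLinearMap
  have hF' : ∀ x : M, F x.1 = f x := fun x => DFunLike.congr_fun hF x
  have key : ∃ g : (H →L[ℂ] H) → ℂ, Continuous[sigmaWeak H, inferInstance] g ∧
      ∀ x ∈ M, F x = g x := by
    have e : (fun y : M => F y.1) = fun y => b y ξ := funext fun y => (hF' y).trans (hf y)
    obtain ⟨τ, h1, h2⟩ := h.exists_top
    exact exists_normal τ h1 hM (by rw [e]; exact h2 ξ)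
  obtain ⟨g, hg, hg'⟩ := key
  exact mem_predual_of hg fun x => (hF' x).symm.trans (hg' x.1 x.2)

theorem isPredual (hM : IsVN M) : IsPredual.{u, v} M (predual M) :=
  ⟨dual_predual hM, fun X _ _ _ b h =>
    unique_of (A := M) (refl_predual hM) h (mem_predual_of_dual hM h)⟩

theorem isClosed_predual (hM : IsVN M) : IsClosed (predual M : Set (StrongDual ℂ M)) := by
  have h := isDualOf_of (A := M) (refl_clo hM)
    (norming_of fun f hf => Submodule.le_topologicalClosure _ (Submodule.subset_span hf))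
  have e : predual M = clo M := le_antisymm predual_le_clo fun f hf =>
    mem_predual_of_dual hM h ⟨f, hf⟩ f fun _ => rfl
  rw [e]
  exact isClosed_clo M

end Vale.Agent.P085N34
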