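import Vale.Agent.P085N34.R
import Vale.Agent.P085N34.S
import Vale.Agent.P085Z.Main
import Mathlib.Analysis.CStarAlgebra.Hom

/-! Separability of the predual, faithful representations and generators. -/

set_option linter.all false

open scoped Topology InnerProductSpace ComplexConjugate ComplexOrder
open Vale.Agent.P085Z Filter

namespace Vale.Agent.P085N34

universe u v w

variable {H : Type u} [NormedAddCommGroup H] [InnerProductSpace ℂ H] [CompleteSpace H]
variable {M : StarSubalgebra ℂ (H →L[ℂ] H)}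

theorem isSeparable_vec {A : Type u} [NormedAddCommGroup A] [NormedSpace ℂ A] {K : Type w}
    [NormedAddCommGroup K] [InnerProductSpace ℂ K] [TopologicalSpace.SeparableSpace K]
    (π : A →ₗ[ℂ] (K →L[ℂ] K)) (hπ : ∀ x, ‖π x‖ ≤ 1 * ‖x‖) :
    (∀ ξ η, ∃ f : StrongDual ℂ A, ∀ x, f x = ⟪ξ, π x η⟫_ℂ) ∧
    TopologicalSpace.IsSeparable {f : StrongDual ℂ A | ∃ ξ η, ∀ x, f x = ⟪ξ, π x η⟫_ℂ} := by
  let ω : K × K → StrongDual ℂ A := fun q =>
    innerSL ℂ q.1 ∘L ContinuousLinearMap.apply ℂ K q.2 ∘L π.mkContinuous 1 hπ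
  have hc : Continuous ω := ((innerSL ℂ).continuous.comp continuous_fst).clm_comp
    (((ContinuousLinearMap.apply ℂ K).continuous.comp continuous_snd).clm_comp continuous_const)
  refine ⟨fun ξ η => ⟨ω (ξ, η), fun _ => rfl⟩, (TopologicalSpace.isSeparable_range hc).mono ?_⟩
  rintro f ⟨ξ, η, h⟩
  exact ⟨(ξ, η), ContinuousLinearMap.ext fun x => (h x).symm⟩

theorem IsVN.isClosed (hM : IsVN M) : IsClosed (M : Set (H →L[ℂ] H)) :=
  P085.vn_isClosed (ofClosed M hM)

variable {K : Type w} [NormedAddCommGroup K] [InnerProductSpace ℂ K] [CompleteSpace K]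

theorem norm_rep (hM : IsVN M) (π : M →⋆ₐ[ℂ] (K →L[ℂ] K)) (hπ : Function.Injective π) (x : M) :
    ‖π x‖ = ‖x‖ := by
  haveI := hM.isClosed
  exact NonUnitalStarAlgHom.norm_map π hπ x

theorem sep_of_normalRep (hM : IsVN M) [TopologicalSpace.SeparableSpace K]
    (π : M →⋆ₐ[ℂ] (K →L[ℂ] K)) (hπ : Function.Injective π)
    (hc : Continuous[sigmaOn M, sigmaWeak K] π) : SepPredual M := by
  obtain ⟨h1, h2⟩ := isSeparable_vec (A := M) π.toAlgHom.toLinearMap
    fun x => by rw [one_mul]; exact (norm_rep hM π hπ x).le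
  refine normSeparable_of (A := M) (refl_predual hM) ?_ (fun x hx => ?_) h2
  · rintro f ⟨ξ, η, hf⟩
    change Continuous[sigmaOn M, inferInstance] f
    have e : (f : M → ℂ) = (fun y : K →L[ℂ] K => ⟪ξ, y η⟫_ℂ) ∘ π := funext hf
    rw [e]
    exact @Continuous.comp _ _ _ (sigmaOn M) (sigmaWeak K) _ _ _ (cont_vec ξ η) hc
  · apply hπ
    rw [map_zero]
    ext η
    refine ext_inner_left ℂ fun ξ => ?_
    obtain ⟨f, hf⟩ := h1 ξ η
    rw [ContinuousLinearMap.zero_apply, inner_zero_right]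
    exact (hf x).symm.trans (hx f ⟨ξ, η, hf⟩)

theorem sep_of_separable (hM : IsVN M) [TopologicalSpace.SeparableSpace H] : SepPredual M :=
  sep_of_normalRep hM M.subtype Subtype.val_injective continuous_induced_dom

theorem sepDual_of_rep (hM : IsVN M) (h : SepRep.{u, v} M) : SepDual.{u, v} M := by
  obtain ⟨K, _, _, _, hK, π, hπ, hc⟩ := h
  have hN : IsVN π.range := hc
  let j : M →ₗᵢ[ℂ] π.range :=
    { toFun := fun x => ⟨π x, x, rfl⟩
      map_add' := fun x y => Subtype.ext (map_add π x y)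
      map_smul' := fun c x => Subtype.ext (map_smul π c x)
      norm_map' := norm_rep hM π hπ }
  have hj : Function.Surjective j := by
    rintro ⟨_, x, rfl⟩
    exact ⟨x, rfl⟩
  exact sepDual_of (B := π.range) (isClosed_predual hN) (sep_of_separable hN) (dual_predual hN)
    (LinearIsometryEquiv.ofSurjective j hj)

theorem wsep_of_sep (hM : IsVN M) (h : SepPredual M) : WSep (ofClosed M hM) :=
  wsep_of_isSeparable (ofClosed M hM) (TopologicalSpace.IsSeparable.mono h VF_subset_predual)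

theorem rep_of_sep (hM : IsVN M) (h : SepPredual M) :
    SepRep.{u, v} M ∧ SepNormalRep.{u, v} M := by
  have hs := wsep_of_sep hM h
  have horb := fun v => hs.isSeparable_orbit v
  obtain ⟨ξ, η, hs⟩ := hs
  let S : Set H := ⋃ n, {w : H | ∃ x ∈ M, w = x (η n)}
  have hS : TopologicalSpace.IsSeparable S :=
    TopologicalSpace.IsSeparable.iUnion fun n => horb (η n)
  let E := (Submodule.span ℂ S).topologicalClosure
  have hE : IsClosed (E : Set H) := Submodule.isClosed_topologicalClosure _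
  haveI : CompleteSpace E := hE.completeSpace_coe
  haveI : TopologicalSpace.SeparableSpace E := hS.span.closure.separableSpace
  obtain ⟨K, _, _, _, hK, ⟨U⟩⟩ := exists_small.{u, v} E
  let V : K →ₗᵢ[ℂ] H := E.subtypeₗᵢ.comp U.toLinearIsometry
  have hr : ∀ y ∈ E, ∃ ζ, y = V ζ := fun y hy => by
    obtain ⟨ζ, h⟩ := U.surjective ⟨y, hy⟩
    exact ⟨ζ, (congrArg Subtype.val h).symm⟩
  have hSE : S ⊆ E := Submodule.subset_span.trans (Submodule.le_topologicalClosure _)
  have hV : ∀ x ∈ M, ∀ ξ, ∃ ζ, x (V ξ) = V ζ := fun x hx ξ => by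
    refine hr _ ?_
    have h1 : E ≤ E.comap (x : H →ₗ[ℂ] H) := by
      refine Submodule.topologicalClosure_minimal _ (Submodule.span_le.2 fun y hy => ?_)
        (hE.preimage x.continuous)
      obtain ⟨n, z, hz, rfl⟩ := Set.mem_iUnion.1 hy
      exact hSE (Set.mem_iUnion.2 ⟨n, x * z, mul_mem hx hz, rfl⟩)
    exact h1 (U ξ).2
  have hf : ∀ x ∈ M, (∀ ξ, x (V ξ) = 0) → x = 0 := fun x hx h0 => by
    ext b
    refine ext_inner_left ℂ fun a => ?_
    rw [ContinuousLinearMap.zero_apply, inner_zero_right, ← norm_le_zero_iff]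
    refine le_of_forall_pos_le_add fun ε hε => ?_
    obtain ⟨n, hn⟩ := hs a b (ε / (‖x‖ + 1)) (by positivity)
    obtain ⟨ζ, hζ⟩ := hr (η n) (hSE (Set.mem_iUnion.2 ⟨n, 1, one_mem M, rfl⟩))
    have := hn x hx
    rw [hζ, h0, inner_zero_right, sub_zero] at this
    refine this.trans ?_
    rw [zero_add, div_mul_eq_mul_div, div_le_iff₀ (by positivity)]
    nlinarith
  exact ⟨⟨K, _, _, _, hK, redHom hV, inj_red hV hf, wclosed_red hV hM hf⟩,
    ⟨K, _, _, _, hK, redHom hV, inj_red hV hf, cont_red⟩⟩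

theorem tfae (hM : IsVN M) :
    [SepPredual M, SepRep.{u, v} M, SepNormalRep.{u, v} M, SepDual.{u, v} M].TFAE := by
  tfae_have 1 → 2 := fun h => (rep_of_sep hM h).1
  tfae_have 1 → 3 := fun h => (rep_of_sep hM h).2
  tfae_have 2 → 4 := sepDual_of_rep hM
  tfae_have 4 → 1 := normSeparable_of_sepDual (A := M) (isPredual hM)
  tfae_have 3 → 1 := by
    rintro ⟨K, _, _, _, hK, π, h1, h2⟩
    exact sep_of_normalRep hM π h1 h2
  tfae_finish

theorem isLeast_wstar (hM : IsVN M) {S : Set (H →L[ℂ] H)} (hS : S ⊆ M) :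
    IsLeast (Over M S) (wstar M S) := by
  refine ⟨⟨?_, sInf_le ⟨hM, le_rfl, hS⟩, fun x hx => ?_⟩, fun N hN => sInf_le hN⟩
  · have e : {T : H →WOT[ℂ] H | T.toCLM ∈ (wstar M S : Set (H →L[ℂ] H))} =
        ⋂ N ∈ Over M S, {T : H →WOT[ℂ] H | T.toCLM ∈ (N : Set (H →L[ℂ] H))} := by
      ext T
      simp only [Set.mem_iInter, Set.mem_setOf_eq, SetLike.mem_coe]
      exact StarSubalgebra.mem_sInf
    change IsClosed _
    rw [e]
    exact isClosed_biInter fun N hN => hN.1
  · exact StarSubalgebra.mem_sInf.2 fun N hN => hN.2.2 hx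

theorem mem_closure_of_bicomm (A : StarSubalgebra ℂ (H →L[ℂ] H)) {y : H →L[ℂ] H}
    (hy : ∀ c : H →L[ℂ] H, (∀ a ∈ A, a * c = c * a) → y * c = c * y) :
    ContinuousLinearMapWOT.ofCLM y ∈ closure {T : H →WOT[ℂ] H | T.toCLM ∈ A} := by
  classical
  choose a ha hd using fun p : Finset H × ℕ =>
    exists_approx_of_bicomm A hy p.1 (show 0 < 1 / ((p.2 : ℝ) + 1) by positivity)
  have h1 : Tendsto (fun p => ContinuousLinearMapWOT.ofCLM (a p)) atTop
      (𝓝 (ContinuousLinearMapWOT.ofCLM y)) := by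
    rw [ContinuousLinearMapWOT.tendsto_iff_forall_inner_apply_tendsto]
    intro v u
    refine (tendsto_const_nhds (x := u)).inner (𝕜 := ℂ) ?_
    rw [Metric.tendsto_atTop]
    intro ε hε
    obtain ⟨n, hn⟩ := exists_nat_one_div_lt hε
    refine ⟨({v}, n), fun p hp => ?_⟩
    have k1 := hd p v (hp.1 (Finset.mem_singleton_self v))
    have k2 : 1 / ((p.2 : ℝ) + 1) ≤ 1 / ((n : ℝ) + 1) := Nat.one_div_le_one_div hp.2
    rw [dist_comm, dist_eq_norm]
    exact lt_of_le_of_lt (k1.trans k2) hn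
  exact mem_closure_of_tendsto h1 (Eventually.of_forall ha)

theorem wstar_closure (hM : IsVN M) {S : Set (H →L[ℂ] H)} (hS : S ⊆ M) :
    {T : H →WOT[ℂ] H | T.toCLM ∈ wstar M S} =
      closure {T : H →WOT[ℂ] H | T.toCLM ∈ StarAlgebra.adjoin ℂ S} := by
  obtain ⟨⟨h1, -, h3⟩, h4⟩ := isLeast_wstar hM hS
  refine Set.Subset.antisymm (fun T hT => ?_)
    (closure_minimal (fun T hT => StarAlgebra.adjoin_le h3 hT) h1)
  have hc : ∀ s ∈ {c | Cm (StarAlgebra.adjoin ℂ S) c}, star s ∈ {c | Cm (StarAlgebra.adjoin ℂ S) c} :=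
    fun s hs => Cm.star hs
  have h5 : (commVN _ hc).toStarSubalgebra ∈ Over M S := by
    refine ⟨wclosed_vn _, fun y hy => mem_of_bicomm M hM fun c hc' => ?_, fun s hs => ?_⟩
    · exact (mem_commVN.1 hy c fun a ha => hc' a (StarAlgebra.adjoin_le hS ha)).symm
    · exact mem_commVN.2 fun c hc' => (hc' s (StarAlgebra.subset_adjoin ℂ S hs)).symm
  exact mem_closure_of_bicomm _ fun c hc' => (mem_commVN.1 (h4 h5 hT) c hc').symm

theorem wstar_pair {a b : H →L[ℂ] H} (ha : IsSelfAdjoint a) (hb : IsSelfAdjoint b) :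
    wstar M {a + Complex.I • b} = wstar M {a, b} := by
  unfold wstar
  congr 1
  ext N
  refine and_congr_right fun _ => and_congr_right fun _ => ?_
  rw [Set.singleton_subset_iff, Set.insert_subset_iff, Set.singleton_subset_iff]
  refine ⟨fun h => ?_, fun h => add_mem h.1 (N.smul_mem h.2 _)⟩
  have h1 : star (a + Complex.I • b) ∈ N := star_mem h
  rw [star_add, star_smul, ha.star_eq, hb.star_eq, Complex.star_def, Complex.conj_I] at h1
  constructor
  · have := N.smul_mem (add_mem h h1) (1 / 2 : ℂ)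
    have e : (1 / 2 : ℂ) • (a + Complex.I • b + (a + -Complex.I • b)) = a := by module
    rwa [e] at this
  · have := N.smul_mem (sub_mem h h1) (-Complex.I / 2)
    have e : (-Complex.I / 2) • (a + Complex.I • b - (a + -Complex.I • b)) = b := by
      match_scalars
      · ring
      · linear_combination (-1 : ℂ) * Complex.I_mul_I
    rwa [e] at this

theorem singly_iff : SinglyGenerated M ↔ TwoGenerated M := by
  constructor
  · rintro ⟨x, hx, h⟩
    have ha : IsSelfAdjoint ((1 / 2 : ℂ) • (x + star x)) := by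
      rw [IsSelfAdjoint, star_smul, star_add, star_star, add_comm]
      simp
    have hb : IsSelfAdjoint ((-Complex.I / 2) • (x - star x)) := by
      rw [IsSelfAdjoint, star_smul, star_sub, star_star, ← neg_sub x, smul_neg, ← neg_smul]
      simp [neg_div]
    refine ⟨_, M.smul_mem (add_mem hx (star_mem hx)) _, _,
      M.smul_mem (sub_mem hx (star_mem hx)) _, ha, hb, ?_⟩
    rw [← wstar_pair ha hb]
    convert h using 3
    match_scalars
    · linear_combination (-1 / 2 : ℂ) * Complex.I_mul_I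
    · linear_combination (1 / 2 : ℂ) * Complex.I_mul_I
  · rintro ⟨a, ha, b, hb, h1, h2, h⟩
    exact ⟨_, add_mem ha (M.smul_mem hb _), h.trans (wstar_pair h1 h2).symm⟩

theorem singly_of_sep (hM : IsVN M) (h : SepPredual M) : SinglyGenerated M := by
  obtain ⟨x, hx, h⟩ := isSinglyGenerated_of_wsep (wsep_of_sep hM h)
  obtain ⟨⟨h1, h2, h3⟩, -⟩ := isLeast_wstar hM hx
  exact ⟨x, hx rfl, le_antisymm (h (ofClosed _ h1) h3) h2⟩

end Vale.Agent.P085N34
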