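import Vale.Agent.P085N34.A
import Mathlib.Algebra.Module.Shrink

/-! Reduction of a von Neumann algebra to an invariant subspace. -/

set_option linter.all false

open scoped Topology InnerProductSpace ComplexConjugate ComplexOrder
open Vale.Agent.P085Z Filter

namespace Vale.Agent.P085N34

universe u v

theorem exists_small (E : Type u) [NormedAddCommGroup E] [InnerProductSpace ℂ E] [CompleteSpace E]
    [TopologicalSpace.SeparableSpace E] :
    ∃ (K : Type v) (_ : NormedAddCommGroup K) (_ : InnerProductSpace ℂ K) (_ : CompleteSpace K),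
      TopologicalSpace.SeparableSpace K ∧ Nonempty (K ≃ₗᵢ[ℂ] E) := by
  obtain ⟨w, hw⟩ := TopologicalSpace.exists_dense_seq E
  haveI : Small.{v} E := small_of_injective (f := fun x n => dist x (w n)) fun x y h => by
    have k : (fun z => dist x z) = fun z => dist y z :=
      hw.equalizer (by fun_prop) (by fun_prop) h
    have := congrFun k x
    exact (dist_eq_zero.1 (this.symm.trans (dist_self x))).symm
  let f : Shrink.{v} E ≃ₗ[ℂ] E := Shrink.linearEquiv ℂ E
  letI i1 : NormedAddCommGroup (Shrink.{v} E) := NormedAddCommGroup.induced _ E f f.injective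
  letI i2 : InnerProductSpace ℂ (Shrink.{v} E) := InnerProductSpace.induced f
  let U : Shrink.{v} E ≃ₗᵢ[ℂ] E := ⟨f, fun _ => rfl⟩
  exact ⟨Shrink.{v} E, i1, i2, U.toIsometryEquiv.completeSpace,
    U.symm.surjective.denseRange.separableSpace U.symm.continuous, ⟨U⟩⟩

variable {H : Type u} [NormedAddCommGroup H] [InnerProductSpace ℂ H] [CompleteSpace H]

theorem wclosed_vn (N : VonNeumannAlgebra H) : WClosed (N : Set (H →L[ℂ] H)) := by
  refine isClosed_of_closure_subset fun T hT => ?_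
  haveI := mem_closure_iff_comap_neBot.1 hT
  refine mem_of_wlim N (l := comap Subtype.val (𝓝 T))
    (y := fun k : {T : H →WOT[ℂ] H | T.toCLM ∈ (N : Set (H →L[ℂ] H))} => k.1.toCLM)
    (fun k => k.2) fun a b => ?_
  exact ContinuousLinearMapWOT.tendsto_iff_forall_inner_apply_tendsto.1 tendsto_comap b a

variable {K : Type v} [NormedAddCommGroup K] [InnerProductSpace ℂ K] [CompleteSpace K]

/-- compression to the range of an isometry -/
noncomputable def red (V : K →ₗᵢ[ℂ] H) (x : H →L[ℂ] H) : K →L[ℂ] K :=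
  ContinuousLinearMap.adjoint V.toContinuousLinearMap ∘L x ∘L V.toContinuousLinearMap

theorem inner_red (V : K →ₗᵢ[ℂ] H) (x : H →L[ℂ] H) (ξ η : K) :
    ⟪ξ, red V x η⟫_ℂ = ⟪V ξ, x (V η)⟫_ℂ :=
  ContinuousLinearMap.adjoint_inner_right V.toContinuousLinearMap ξ (x (V η))

theorem star_red (V : K →ₗᵢ[ℂ] H) (x : H →L[ℂ] H) : star (red V x) = red V (star x) := by
  ext η
  refine ext_inner_left ℂ fun ξ => ?_
  rw [inner_star_right, inner_red, inner_star_right, ← inner_conj_symm, inner_red,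
    inner_conj_symm]

theorem red_eq (V : K →ₗᵢ[ℂ] H) {x : H →L[ℂ] H} {ξ ζ : K} (h : x (V ξ) = V ζ) :
    red V x ξ = ζ := by
  refine ext_inner_left ℂ fun η => ?_
  rw [inner_red, h, V.inner_map_map]

variable {M : StarSubalgebra ℂ (H →L[ℂ] H)} {V : K →ₗᵢ[ℂ] H}
  (hV : ∀ x ∈ M, ∀ ξ, ∃ ζ, x (V ξ) = V ζ)
include hV

theorem V_red {x : H →L[ℂ] H} (hx : x ∈ M) (ξ : K) : V (red V x ξ) = x (V ξ) := by
  obtain ⟨ζ, h⟩ := hV x hx ξ
  rw [red_eq V h, h]

theorem red_mul_right (c : H →L[ℂ] H) {x : H →L[ℂ] H} (hx : x ∈ M) :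
    red V c * red V x = red V (c * x) := by
  ext η
  refine ext_inner_left ℂ fun ξ => ?_
  change ⟪ξ, red V c (red V x η)⟫_ℂ = _
  rw [inner_red, inner_red, V_red hV hx]
  rfl

theorem red_mul_left (c : H →L[ℂ] H) {x : H →L[ℂ] H} (hx : x ∈ M) :
    red V x * red V c = red V (x * c) := by
  have := congrArg star (red_mul_right hV (star c) (star_mem hx))
  rwa [star_mul, star_red, star_red, star_red, star_mul, star_star, star_star] at this

/-- the reduction as a star homomorphism -/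
noncomputable def redHom : M →⋆ₐ[ℂ] (K →L[ℂ] K) where
  toFun x := red V x.1
  map_one' := by
    ext ξ
    exact red_eq V rfl
  map_mul' x y := (red_mul_right hV x.1 y.2).symm
  map_zero' := by
    ext ξ
    exact red_eq V (map_zero V).symm
  map_add' x y := by
    ext η
    refine ext_inner_left ℂ fun ξ => ?_
    rw [ContinuousLinearMap.add_apply, inner_add_right, inner_red, inner_red, inner_red,
      ← inner_add_right]
    rfl
  commutes' c := by
    ext ξ
    exact red_eq V (map_smul V c ξ).symm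
  map_star' x := (star_red V x.1).symm

omit hV in
theorem cont_red : Continuous[sigmaOn M, sigmaWeak K] fun x : M => red V x.1 := by
  refine continuous_iInf_rng.2 fun ξ => continuous_iInf_rng.2 fun η =>
    continuous_induced_rng.2 ?_
  have hm : ∀ ξ : P132.EllTwo K, Memℓp (fun n => V (ξ n)) 2 := fun ξ => by
    rw [P132.memℓp_two_iff]
    simp only [V.norm_map]
    exact (P132.L2_norm_sq ξ).summable
  have h := cont_amp (H := H) ⟨_, hm ξ⟩ ⟨_, hm η⟩
  simp only [← tsum_amp] at h
  have h2 := @Continuous.comp _ _ _ (sigmaOn M) (sigmaWeak H) _ _ _ h continuous_induced_dom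
  convert h2 using 1
  funext x
  exact tsum_congr fun n => inner_red V x.1 (ξ n) (η n)

/-- the commutant -/
def Cm (M : StarSubalgebra ℂ (H →L[ℂ] H)) (c : H →L[ℂ] H) : Prop := ∀ a ∈ M, a * c = c * a

omit hV

theorem Cm.star {c : H →L[ℂ] H} (hc : Cm M c) : Cm M (star c) := fun a ha => by
  have := congrArg Star.star (hc _ (star_mem ha))
  rwa [star_mul, star_mul, star_star, eq_comm] at this

theorem Cm.mul {c d : H →L[ℂ] H} (hc : Cm M c) (hd : Cm M d) : Cm M (c * d) := fun a ha => by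
  rw [← mul_assoc, hc a ha, mul_assoc, hd a ha, mul_assoc]

theorem Cm.one : Cm M 1 := fun a _ => by rw [mul_one, one_mul]

theorem dense_span (hM : IsVN M) (hf : ∀ x ∈ M, (∀ ξ, x (V ξ) = 0) → x = 0) :
    Dense (Submodule.span ℂ (Set.range fun q : Subtype (Cm M) × K => q.1.1 (V q.2)) : Set H) := by
  obtain ⟨p, -, -, h1, -, h3, h4⟩ :=
    exists_proj (Set.range fun q : Subtype (Cm M) × K => q.1.1 (V q.2))
  have hpM : p ∈ M := mem_of_bicomm M hM fun c hc => by
    refine (h3 c ?_ ?_).symm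
    · rintro _ ⟨q, rfl⟩
      exact h1 _ ⟨(⟨c * q.1.1, Cm.mul hc q.1.2⟩, q.2), rfl⟩
    · rintro _ ⟨q, rfl⟩
      exact h1 _ ⟨(⟨star c * q.1.1, (Cm.star hc).mul q.1.2⟩, q.2), rfl⟩
  have h5 := hf (1 - p) (sub_mem (one_mem M) hpM) fun ξ =>
    sub_eq_zero.2 (h1 _ ⟨(⟨1, Cm.one⟩, ξ), rfl⟩).symm
  intro v
  have h6 := h4 v
  rwa [← sub_eq_zero.1 h5] at h6

theorem inner_cm {U : K →L[ℂ] K} (hU : ∀ c, Cm M c → red V c * U = U * red V c)
    {c d : H →L[ℂ] H} (hc : Cm M c) (hd : Cm M d) (ξ η : K) :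
    ⟪c (V (U ξ)), d (V (U η))⟫_ℂ = ⟪ξ, (star U * U) (red V (star c * d) η)⟫_ℂ := by
  have h1 := DFunLike.congr_fun (hU _ (hc.star.mul hd)) η
  rw [ContinuousLinearMap.mul_apply, ContinuousLinearMap.mul_apply] at h1
  rw [ContinuousLinearMap.mul_apply, inner_star_right, ← h1, inner_red,
    ContinuousLinearMap.mul_apply, inner_star_right]

theorem exists_sqrt {T : K →L[ℂ] K} (hT : ∀ c, Cm M c → red V c * T = T * red V c) :
    ∃ S : K →L[ℂ] K, (∀ c, Cm M c → red V c * S = S * red V c) ∧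
      star T * T + star S * S = ((‖T‖ ^ 2 : ℝ) : ℂ) • (star 1 * 1 : K →L[ℂ] K) := by
  obtain ⟨Q, hQ⟩ : ∃ Q, Q = algebraMap ℝ (K →L[ℂ] K) (‖T‖ ^ 2) - star T * T := ⟨_, rfl⟩
  have hQ0 : 0 ≤ Q := by
    rw [hQ, sub_nonneg]
    exact CStarAlgebra.star_mul_le_algebraMap_norm_sq
  refine ⟨CFC.sqrt Q, fun c hc => ?_, ?_⟩
  · have h1 : Commute T (red V c) := (hT c hc).symm
    have h2 : Commute (star T) (red V c) := by
      have := congrArg star (hT _ hc.star)
      rwa [star_mul, star_mul, star_red, star_star] at this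
    have h3 : Commute Q (red V c) := by
      rw [hQ]
      exact (Algebra.commute_algebraMap_left _ _).sub_left (h2.mul_left h1)
    exact (h3.cfcₙ_nnreal _).eq.symm
  · rw [(IsSelfAdjoint.of_nonneg (CFC.sqrt_nonneg Q)).star_eq, CFC.sqrt_mul_sqrt_self Q hQ0,
      hQ, add_sub_cancel, star_one, mul_one, Algebra.algebraMap_eq_smul_one,
      Complex.coe_smul]

/-- finite sums -/
noncomputable def lin (M : StarSubalgebra ℂ (H →L[ℂ] H)) (V : K →ₗᵢ[ℂ] H) (U : K →L[ℂ] K) :
    ((Subtype (Cm M) × K) →₀ ℂ) →ₗ[ℂ] H :=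
  Finsupp.linearCombination ℂ fun q => q.1.1 (V (U q.2))

theorem lin_single (U : K →L[ℂ] K) (q : Subtype (Cm M) × K) (a : ℂ) :
    lin M V U (Finsupp.single q a) = a • q.1.1 (V (U q.2)) :=
  Finsupp.linearCombination_single ℂ a q

theorem lin_bound {T : K →L[ℂ] K} (hT : ∀ c, Cm M c → red V c * T = T * red V c) (z) :
    ‖lin M V T z‖ ≤ ‖T‖ * ‖lin M V 1 z‖ := by
  obtain ⟨S, hS, h1⟩ := exists_sqrt hT
  have hid : ∀ z w, ⟪lin M V T z, lin M V T w⟫_ℂ + ⟪lin M V S z, lin M V S w⟫_ℂ =
      ((‖T‖ ^ 2 : ℝ) : ℂ) * ⟪lin M V 1 z, lin M V 1 w⟫_ℂ := by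
    intro z w
    induction z using Finsupp.induction_linear with
    | zero => simp
    | add a b ha hb => simp only [map_add, inner_add_left]; linear_combination ha + hb
    | single q a =>
      induction w using Finsupp.induction_linear with
      | zero => simp
      | add a b ha hb => simp only [map_add, inner_add_right]; linear_combination ha + hb
      | single r b =>
        have h2 := congrArg (fun x => ⟪q.2, x⟫_ℂ)
          (DFunLike.congr_fun h1 (red V (star q.1.1 * r.1.1) r.2))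
        simp only [ContinuousLinearMap.add_apply, ContinuousLinearMap.smul_apply, inner_add_right,
          inner_smul_right] at h2
        simp only [lin_single, inner_smul_left, inner_smul_right]
        rw [inner_cm hT q.1.2 r.1.2, inner_cm hS q.1.2 r.1.2,
          inner_cm (fun c _ => by rw [mul_one, one_mul]) q.1.2 r.1.2]
        linear_combination b * conj a * h2
  have h1 := congrArg Complex.re (hid z z)
  rw [Complex.add_re, Complex.re_ofReal_mul, P132N34.inner_self_re, P132N34.inner_self_re,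
    P132N34.inner_self_re] at h1
  refine abs_le_of_sq_le_sq' ?_ (by positivity) |>.2
  rw [mul_pow]
  nlinarith [sq_nonneg ‖lin M V S z‖]

theorem exists_ext (hM : IsVN M) (hf : ∀ x ∈ M, (∀ ξ, x (V ξ) = 0) → x = 0) {T : K →L[ℂ] K}
    (hT : ∀ c, Cm M c → red V c * T = T * red V c) : ∃ x ∈ M, red V x = T := by
  have hden := dense_span hM hf
  have hden' : DenseRange (lin M V 1) := by
    change Dense (LinearMap.range (lin M V 1) : Set H)
    rw [lin, Finsupp.range_linearCombination]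
    exact hden
  obtain ⟨x, hx⟩ : ∃ x : H →L[ℂ] H, ∀ c, Cm M c → ∀ ξ, x (c (V ξ)) = c (V (T ξ)) := by
    refine ⟨(lin M V T).extendOfNorm (lin M V 1), fun c hc ξ => ?_⟩
    have := LinearMap.extendOfNorm_eq hden' ⟨_, lin_bound hT⟩ (Finsupp.single (⟨c, hc⟩, ξ) 1)
    rwa [lin_single, lin_single, one_smul, one_smul] at this
  refine ⟨x, mem_of_bicomm M hM fun c hc => ?_, ?_⟩
  · refine ContinuousLinearMap.ext_on hden ?_
    rintro _ ⟨q, rfl⟩
    have := hx _ (Cm.mul hc q.1.2) q.2
    rw [ContinuousLinearMap.mul_apply, ContinuousLinearMap.mul_apply] at this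
    rw [ContinuousLinearMap.mul_apply, ContinuousLinearMap.mul_apply, hx _ q.1.2]
    exact this
  · ext ξ
    exact red_eq V (hx 1 Cm.one ξ)

include hV

theorem wclosed_red (hM : IsVN M) (hf : ∀ x ∈ M, (∀ ξ, x (V ξ) = 0) → x = 0) :
    WClosed (Set.range (redHom hV)) := by
  have hS : ∀ s ∈ {s | ∃ c : H →L[ℂ] H, (∀ a ∈ M, a * c = c * a) ∧ s = red V c},
      star s ∈ {s | ∃ c : H →L[ℂ] H, (∀ a ∈ M, a * c = c * a) ∧ s = red V c} := by
    rintro _ ⟨c, hc, rfl⟩
    refine ⟨star c, fun a ha => ?_, star_red V c⟩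
    have := congrArg star (hc _ (star_mem ha))
    rwa [star_mul, star_mul, star_star, eq_comm] at this
  have e : Set.range (redHom hV) = commVN _ hS := by
    ext T
    constructor
    · rintro ⟨x, rfl⟩
      refine mem_commVN.2 ?_
      rintro _ ⟨c, hc, rfl⟩
      change red V c * red V x.1 = red V x.1 * red V c
      rw [red_mul_right hV c x.2, red_mul_left hV c x.2, hc x.1 x.2]
    · intro hT
      obtain ⟨x, hx, h⟩ := exists_ext hM hf fun c hc => mem_commVN.1 hT _ ⟨c, hc, rfl⟩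
      exact ⟨⟨x, hx⟩, h⟩
  rw [e]
  exact wclosed_vn _

theorem inj_red (hf : ∀ x ∈ M, (∀ ξ, x (V ξ) = 0) → x = 0) : Function.Injective (redHom hV) := by
  rw [injective_iff_map_eq_zero]
  intro x hx
  refine Subtype.ext (hf x.1 x.2 fun ξ => ?_)
  have : red V x.1 = 0 := hx
  rw [← V_red hV x.2, this, ContinuousLinearMap.zero_apply, map_zero]

end Vale.Agent.P085N34
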