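import Mathlib.Analysis.InnerProductSpace.WeakOperatorTopology
import Mathlib.Analysis.InnerProductSpace.l2Space
import Mathlib.Analysis.InnerProductSpace.Adjoint
import Mathlib.Analysis.CStarAlgebra.Classes

/-!
# P085: von Neumann algebras, generation, the predual and faithful representations
-/

open scoped InnerProductSpace Topology

namespace Vale.Agent.P085N34

universe u v

section General

/-- The continuous linear functionals on the normed space `A` that are also continuous for a second
topology `t` on `A`: a subspace of the dual space of `A`, with the norm of the dual space. -/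
noncomputable def contDual (A : Type u) [NormedAddCommGroup A] [NormedSpace ℂ A] :
    TopologicalSpace A → Submodule ℂ (StrongDual ℂ A) := fun t =>
  { carrier := {f | Continuous[t, inferInstance] f}
    add_mem' hf hg := @Continuous.add _ _ _ _ _ t _ _ hf hg
    zero_mem' := @continuous_const _ _ t _ _
    smul_mem' c _ hf := @Continuous.const_smul _ _ _ _ _ _ t _ hf c }

/-- The normed space `A` is the dual space of the normed space `X` for the pairing `b`: the map
`x ↦ b x` is a linear isometry of `A` onto the dual space of `X`. -/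
def IsDualOf (A : Type u) (X : Type v) [NormedAddCommGroup A] [NormedSpace ℂ A]
    [NormedAddCommGroup X] [NormedSpace ℂ X] (b : A → X → ℂ) : Prop :=
  ∃ e : A ≃ₗᵢ[ℂ] StrongDual ℂ X, ∀ x ξ, e x ξ = b x ξ

/-- `P` is the predual of `A`: `A` is the dual space of `P` for the evaluation pairing, and every
Banach space `X` of which `A` is the dual space is isometric to `P`, compatibly with the
pairings. -/
def IsPredual (A : Type u) [NormedAddCommGroup A] [NormedSpace ℂ A]
    (P : Submodule ℂ (StrongDual ℂ A)) : Prop :=
  IsDualOf A P (fun x f => f.1 x) ∧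
    ∀ (X : Type v) [NormedAddCommGroup X] [NormedSpace ℂ X] [CompleteSpace X] (b : A → X → ℂ),
      IsDualOf A X b → ∃ j : X ≃ₗᵢ[ℂ] P, ∀ ξ x, (j ξ).1 x = b x ξ

/-- The subspace `P` of the dual space of `A` is norm separable. -/
def NormSeparable (A : Type u) [NormedAddCommGroup A] [NormedSpace ℂ A]
    (P : Submodule ℂ (StrongDual ℂ A)) : Prop :=
  TopologicalSpace.IsSeparable (P : Set (StrongDual ℂ A))

/-- `A` is, as a Banach space, the dual space of a separable Banach space. -/
def SepDual (A : Type u) [NormedAddCommGroup A] [NormedSpace ℂ A] : Prop :=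
  ∃ (X : Type v) (_ : NormedAddCommGroup X) (_ : NormedSpace ℂ X) (_ : CompleteSpace X)
    (b : A → X → ℂ), TopologicalSpace.SeparableSpace X ∧ IsDualOf A X b

/-- There is an injective unital star homomorphism `A → B` with the property `good`. -/
def Faithful (A : Type u) (B : Type v) [Semiring A] [Algebra ℂ A] [Star A] [Semiring B]
    [Algebra ℂ B] [Star B] (good : (A → B) → Prop) : Prop :=
  ∃ π : A →⋆ₐ[ℂ] B, Function.Injective π ∧ good π

end General

variable {H : Type u} [NormedAddCommGroup H] [InnerProductSpace ℂ H]

/-- A set of operators is closed in the weak operator topology. -/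
def WClosed (S : Set (H →L[ℂ] H)) : Prop :=
  IsClosed {T : H →WOT[ℂ] H | T.toCLM ∈ S}

/-- The `σ`-weak (ultraweak) topology of `B(H)`: the weakest topology for which the functionals
`x ↦ ∑ ⟨ξ n, x (η n)⟩` are continuous, for all square summable sequences `ξ`, `η` in `H`. -/
@[reducible] noncomputable def sigmaWeak (H : Type u) [NormedAddCommGroup H]
    [InnerProductSpace ℂ H] : TopologicalSpace (H →L[ℂ] H) :=
  ⨅ (ξ : lp (fun _ : ℕ => H) 2) (η : lp (fun _ : ℕ => H) 2),
    TopologicalSpace.induced (fun x => ∑' n, ⟪ξ n, x (η n)⟫_ℂ) inferInstance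

variable [CompleteSpace H]

/-- A von Neumann algebra on `H`: a unital star subalgebra of `B(H)` that is closed in the weak
operator topology. -/
def IsVN (M : StarSubalgebra ℂ (H →L[ℂ] H)) : Prop :=
  WClosed (M : Set (H →L[ℂ] H))

/-- The von Neumann subalgebras of `M` (with the same unit) that contain `S`. -/
def Over (M : StarSubalgebra ℂ (H →L[ℂ] H)) (S : Set (H →L[ℂ] H)) :
    Set (StarSubalgebra ℂ (H →L[ℂ] H)) :=
  {N | IsVN N ∧ N ≤ M ∧ S ⊆ N}

/-- `W*(S)`: the smallest von Neumann subalgebra of `M` containing `S` and `1`. -/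
noncomputable def wstar (M : StarSubalgebra ℂ (H →L[ℂ] H)) (S : Set (H →L[ℂ] H)) :
    StarSubalgebra ℂ (H →L[ℂ] H) :=
  sInf (Over M S)

/-- `M = W*(x)` for some `x ∈ M`. -/
def SinglyGenerated (M : StarSubalgebra ℂ (H →L[ℂ] H)) : Prop :=
  ∃ x ∈ M, M = wstar M {x}

/-- `M = W*(a, b)` for some self-adjoint `a, b ∈ M`. -/
def TwoGenerated (M : StarSubalgebra ℂ (H →L[ℂ] H)) : Prop :=
  ∃ a ∈ M, ∃ b ∈ M, IsSelfAdjoint a ∧ IsSelfAdjoint b ∧ M = wstar M {a, b}

/-- The `σ`-weak topology of `M`. -/
@[reducible] noncomputable def sigmaOn (M : StarSubalgebra ℂ (H →L[ℂ] H)) : TopologicalSpace M :=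
  (sigmaWeak H).induced Subtype.val

/-- The predual `M_*`: the normal (`σ`-weakly continuous) functionals on `M`, with the norm of the
dual space of `M`. -/
noncomputable def predual (M : StarSubalgebra ℂ (H →L[ℂ] H)) : Submodule ℂ (StrongDual ℂ M) :=
  contDual M (sigmaOn M)

/-- `M` has separable predual: `M_*` is norm separable. -/
def SepPredual (M : StarSubalgebra ℂ (H →L[ℂ] H)) : Prop :=
  NormSeparable M (predual M)

/-- `M` is faithfully represented on a separable Hilbert space `K` as a von Neumann algebra: an
injective unital star homomorphism `π : M → B(K)` has a weakly closed image. -/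
def SepRep (M : StarSubalgebra ℂ (H →L[ℂ] H)) : Prop :=
  ∃ (K : Type v) (_ : NormedAddCommGroup K) (_ : InnerProductSpace ℂ K) (_ : CompleteSpace K),
    TopologicalSpace.SeparableSpace K ∧
      Faithful M (K →L[ℂ] K) fun π => WClosed (Set.range π)

/-- `M` has a faithful normal (`σ`-weakly continuous) representation on a separable Hilbert
space `K`. -/
def SepNormalRep (M : StarSubalgebra ℂ (H →L[ℂ] H)) : Prop :=
  ∃ (K : Type v) (_ : NormedAddCommGroup K) (_ : InnerProductSpace ℂ K) (_ : CompleteSpace K),
    TopologicalSpace.SeparableSpace K ∧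
      Faithful M (K →L[ℂ] K) fun π => Continuous[sigmaOn M, sigmaWeak K] π

end Vale.Agent.P085N34
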